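import Vale.Agent.P229.D1.Iface
import Vale.Agent.P229.Prof

/-!
# P229, block D2, module BARR (helper75 stub, proof helper80)
-/

namespace P229

open Set Real
open scoped ContDiff

noncomputable section

private lemma barr_cos_pos {y : ℝ} (h : y ∈ Icc (-YY) YY) : 1 / 2 ≤ Real.cos (y / 3) ∧
    Real.cos (YY / 3) ≤ Real.cos (y / 3) := by
  have hY : YY = 41 / 20 := rfl
  have h1 : 1 / 2 ≤ Real.cos (YY / 3) := by
    have := Real.one_sub_sq_div_two_le_cos (x := YY / 3)
    rw [hY] at this ⊢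
    norm_num at this ⊢
    linarith
  have h2 : Real.cos (YY / 3) ≤ Real.cos (y / 3) := by
    rw [← Real.cos_abs (y / 3)]
    apply Real.cos_le_cos_of_nonneg_of_le_pi (abs_nonneg _)
    · rw [hY]; have := Real.pi_gt_three; linarith
    · rw [abs_div, abs_of_pos (show (0 : ℝ) < 3 by norm_num)]
      have := abs_le.2 ⟨h.1, h.2⟩
      linarith
  exact ⟨h1.trans h2, h2⟩

private lemma barr_exp {x : ℝ} (hx : 0 < x) : Real.exp (-x) ≤ 6 / x ^ 3 := by
  have h1 : x ^ 3 / 6 ≤ Real.exp x := by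
    have := Real.pow_div_factorial_le_exp x hx.le 3
    norm_num [Nat.factorial] at this
    linarith
  rw [Real.exp_neg, le_div_iff₀ (by positivity)]
  have h2 : 0 < Real.exp x := Real.exp_pos x
  rw [inv_mul_le_iff₀ h2]
  linarith

private lemma barr_one (A : ℝ) (hA : 0 ≤ A) (s mu L M : ℝ)
    (w w1 w2 v1 v2 : ℝ → ℝ → ℝ) (hs : 0 < s) (hmu : 0 ≤ mu) (hmuA : mu ≤ A) (hL : 0 ≤ L)
    (hM : 0 ≤ M)
    (hw : ContinuousOn (fun z : ℝ × ℝ => w z.1 z.2)
      (Icc (-(141 / 100) : ℝ) (141 / 100) ×ˢ Icc (-YY) YY))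
    (h1 : ∀ p ∈ Ioo (-(141 / 100) : ℝ) (141 / 100), ∀ y ∈ Ioo (-YY) YY,
      HasDerivAt (fun p => w p y) (w1 p y) p)
    (h2 : ∀ p ∈ Ioo (-(141 / 100) : ℝ) (141 / 100), ∀ y ∈ Ioo (-YY) YY,
      HasDerivAt (fun p => w1 p y) (w2 p y) p)
    (h3 : ∀ p ∈ Ioo (-(141 / 100) : ℝ) (141 / 100), ∀ y ∈ Ioo (-YY) YY,
      HasDerivAt (fun y => w p y) (v1 p y) y)
    (h4 : ∀ p ∈ Ioo (-(141 / 100) : ℝ) (141 / 100), ∀ y ∈ Ioo (-YY) YY,
      HasDerivAt (fun y => v1 p y) (v2 p y) y)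
    (h5 : ∀ p ∈ Ioo (-(141 / 100) : ℝ) (141 / 100), ∀ y ∈ Ioo (-YY) YY,
      -M ≤ v2 p y + s ^ 2 * mu * chi y * w2 p y)
    (h6 : ∀ p ∈ Icc (-(141 / 100) : ℝ) (141 / 100), w p (-YY) = 0 ∧ w p YY = 0)
    (h7 : ∀ p ∈ Icc (-(141 / 100) : ℝ) (141 / 100), ∀ y ∈ Icc (-YY) YY, w p y ≤ L) :
    ∀ p : ℝ, |p| ≤ 1409 / 1000 → ∀ y ∈ Icc (-YY) YY,
      w p y ≤ 3 * M + (24 * 10 ^ 9 * (3 * (A + 1)) ^ 3) * L * s ^ 3 := by
  intro p hp y hy
  have hY : YY = 41 / 20 := rfl
  have hYpos : (0 : ℝ) < YY := by rw [hY]; norm_num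
  set A' : ℝ := 3 * (A + 1) with hA'
  have hA'pos : 0 < A' := by positivity
  set k : ℝ := 1 / (A' * s) with hk
  have hkpos : 0 < k := by positivity
  set c0 : ℝ := Real.cos (YY / 3) with hc0
  have hc0pos : 1 / 2 ≤ c0 := (barr_cos_pos (y := YY) ⟨by linarith, le_rfl⟩).1
  set D : ℝ := Real.cosh (k * (141 / 100)) with hD
  have hDpos : 0 < D := Real.cosh_pos _
  set L' : ℝ := L / (D * c0) with hL'
  have hL'0 : 0 ≤ L' := by positivity
  have hmain := D1.max_rect (a := -(141 / 100 : ℝ)) (b := 141 / 100) (Y := YY) (by norm_num) hYpos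
    (c := fun _ y => s ^ 2 * mu * chi y)
    (fun p _ y _ => by have := chi_nonneg y; positivity)
    (w := fun p y => w p y - L' * (Real.cosh (k * p) * Real.cos (y / 3)))
    (w1 := fun p y => w1 p y - L' * (k * Real.sinh (k * p) * Real.cos (y / 3)))
    (w2 := fun p y => w2 p y - L' * (k ^ 2 * Real.cosh (k * p) * Real.cos (y / 3)))
    (v1 := fun p y => v1 p y + L' * (Real.cosh (k * p) * (Real.sin (y / 3) / 3)))
    (v2 := fun p y => v2 p y + L' * (Real.cosh (k * p) * (Real.cos (y / 3) / 9)))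
    (A := 0) (M := M) hM ?_ ?_ ?_ ?_ ?_ ?_ ?_ ?_ p ?_ y hy
  · have hc1 := barr_cos_pos hy
    have hcos1 : Real.cos (y / 3) ≤ 1 := Real.cos_le_one _
    have hpk : Real.cosh (k * p) ≤ Real.exp (k * (1409 / 1000)) := by
      rw [← Real.cosh_abs (k * p), abs_mul, abs_of_pos hkpos]
      have e1 : Real.cosh (k * |p|) ≤ Real.exp (k * |p|) := by
        rw [Real.cosh_eq]
        have : Real.exp (-(k * |p|)) ≤ Real.exp (k * |p|) := by
          apply Real.exp_le_exp.2
          have : 0 ≤ k * |p| := by positivity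
          linarith
        linarith
      refine e1.trans (Real.exp_le_exp.2 ?_)
      exact mul_le_mul_of_nonneg_left hp hkpos.le
    have hDl : Real.exp (k * (141 / 100)) / 2 ≤ D := by
      rw [hD, Real.cosh_eq]
      have := Real.exp_pos (-(k * (141 / 100)))
      linarith
    have hratio : Real.cosh (k * p) / D ≤ 2 * (6 * (1000 * A' * s) ^ 3) := by
      have e2 : Real.cosh (k * p) / D ≤ Real.exp (k * (1409 / 1000))
          / (Real.exp (k * (141 / 100)) / 2) := by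
        apply div_le_div₀ (Real.exp_pos _).le hpk (by positivity) hDl
      refine e2.trans ?_
      have e3 : Real.exp (k * (1409 / 1000)) / (Real.exp (k * (141 / 100)) / 2)
          = 2 * Real.exp (-(k / 1000)) := by
        have : k * (1409 / 1000) = k * (141 / 100) + (-(k / 1000)) := by ring
        rw [this, Real.exp_add]
        have := (Real.exp_pos (k * (141 / 100))).ne'
        field_simp
      rw [e3]
      have e4 := barr_exp (x := k / 1000) (by positivity)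
      have e5 : 6 / (k / 1000) ^ 3 = 6 * (1000 * A' * s) ^ 3 := by
        rw [hk]; field_simp
      rw [e5] at e4
      linarith
    have hc0inv : 1 / c0 ≤ 2 := by
      rw [div_le_iff₀ (by linarith)]; linarith
    have hfin : L' * (Real.cosh (k * p) * Real.cos (y / 3))
        ≤ (24 * 10 ^ 9 * A' ^ 3) * L * s ^ 3 := by
      have e6 : L' * (Real.cosh (k * p) * Real.cos (y / 3))
          = L * (Real.cosh (k * p) / D) * (1 / c0) * Real.cos (y / 3) := by
        rw [hL']; field_simp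
      rw [e6]
      have hcp : 0 ≤ Real.cosh (k * p) / D := div_nonneg (Real.cosh_pos _).le hDpos.le
      calc L * (Real.cosh (k * p) / D) * (1 / c0) * Real.cos (y / 3)
          ≤ L * (Real.cosh (k * p) / D) * (1 / c0) * 1 :=
            mul_le_mul_of_nonneg_left hcos1 (by positivity)
        _ ≤ L * (2 * (6 * (1000 * A' * s) ^ 3)) * 2 * 1 := by gcongr
        _ = (24 * 10 ^ 9 * A' ^ 3) * L * s ^ 3 := by ring
    have hYsq : YY ^ 2 / 2 * M ≤ 3 * M := by
      apply mul_le_mul_of_nonneg_right _ hM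
      rw [hY]; norm_num
    linarith
  · exact hw.sub (by fun_prop)
  · intro p hp y hy
    have hd := ((Real.hasDerivAt_cosh (k * p)).comp p ((hasDerivAt_id p).const_mul k))
    have hd2 : HasDerivAt (fun p => Real.cosh (k * p)) (k * Real.sinh (k * p)) p := by
      refine HasDerivAt.congr_deriv hd ?_
      simp; ring
    exact (h1 p hp y hy).sub ((hd2.mul_const _).const_mul L')
  · intro p hp y hy
    have hd := ((Real.hasDerivAt_sinh (k * p)).comp p ((hasDerivAt_id p).const_mul k))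
    have hd2 : HasDerivAt (fun p => k * Real.sinh (k * p)) (k ^ 2 * Real.cosh (k * p)) p := by
      refine HasDerivAt.congr_deriv (hd.const_mul k) ?_
      simp; ring
    exact (h2 p hp y hy).sub ((hd2.mul_const _).const_mul L')
  · intro p hp y hy
    have hd : HasDerivAt (fun y : ℝ => Real.cos (y / 3)) (-(Real.sin (y / 3)) * (1 / 3)) y :=
      HasDerivAt.comp (h := fun t : ℝ => t / 3) y (Real.hasDerivAt_cos (y / 3)) ((hasDerivAt_id y).div_const 3)
    refine ((h3 p hp y hy).sub ((hd.const_mul (Real.cosh (k * p))).const_mul L')).congr_deriv ?_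
    ring
  · intro p hp y hy
    have hd : HasDerivAt (fun y : ℝ => Real.sin (y / 3)) ((Real.cos (y / 3)) * (1 / 3)) y :=
      HasDerivAt.comp (h := fun t : ℝ => t / 3) y (Real.hasDerivAt_sin (y / 3)) ((hasDerivAt_id y).div_const 3)
    refine ((h4 p hp y hy).add (((hd.div_const 3).const_mul
      (Real.cosh (k * p))).const_mul L')).congr_deriv ?_
    ring
  · intro p hp y hy
    have h8 := h5 p hp y hy
    have hcy := barr_cos_pos ⟨hy.1.le, hy.2.le⟩
    have hch : 0 < Real.cosh (k * p) := Real.cosh_pos _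
    have hck : s ^ 2 * mu * chi y * k ^ 2 ≤ 1 / 9 := by
      have e1 : s ^ 2 * mu * chi y * k ^ 2 = mu * chi y / A' ^ 2 := by
        rw [hk]; field_simp
      rw [e1, div_le_iff₀ (by positivity), hA']
      have hc1 := chi_le_one y
      have hc2 := chi_nonneg y
      have : mu * chi y ≤ A := by nlinarith
      nlinarith
    have hkey : 0 ≤ L' * (Real.cosh (k * p) * Real.cos (y / 3)
        * (1 / 9 - s ^ 2 * mu * chi y * k ^ 2)) := by
      have : 0 ≤ 1 / 9 - s ^ 2 * mu * chi y * k ^ 2 := by linarith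
      have h9 : 0 ≤ Real.cos (y / 3) := by linarith [hcy.1]
      positivity
    nlinarith [hkey, h8]
  · intro y hy
    have hcy := barr_cos_pos hy
    have e1 : L ≤ L' * (D * Real.cos (y / 3)) := by
      have e2 : L = L' * (D * c0) := by rw [hL']; field_simp
      rw [e2]
      have e3 : D * c0 ≤ D * Real.cos (y / 3) := mul_le_mul_of_nonneg_left hcy.2 hDpos.le
      have e4 : L' * (D * c0) / (D * c0) = L' := by field_simp
      exact mul_le_mul_of_nonneg_left e3 hL'0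
    constructor
    · have := h7 (-(141 / 100)) ⟨le_rfl, by norm_num⟩ y hy
      have e5 : Real.cosh (k * -(141 / 100)) = D := by
        rw [mul_neg, Real.cosh_neg]
      simp only [e5]; linarith
    · have := h7 (141 / 100) ⟨by norm_num, le_rfl⟩ y hy
      simp only [← hD]; linarith
  · intro p hp
    have h8 := h6 p hp
    have hcy := barr_cos_pos (y := YY) ⟨by linarith, le_rfl⟩
    have hcy' := barr_cos_pos (y := -YY) ⟨le_rfl, by linarith⟩
    have hch : 0 < Real.cosh (k * p) := Real.cosh_pos _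
    simp only [h8.1, h8.2]
    constructor
    · have : 0 ≤ L' * (Real.cosh (k * p) * Real.cos (-YY / 3)) := by
        have : 0 ≤ Real.cos (-YY / 3) := by linarith [hcy'.1]
        positivity
      linarith
    · have : 0 ≤ L' * (Real.cosh (k * p) * Real.cos (YY / 3)) := by
        have : 0 ≤ Real.cos (YY / 3) := by linarith [hcy.1]
        positivity
      linarith
  · have := abs_le.1 hp
    exact ⟨by linarith, by linarith⟩

/-- module BARR: maximum principle (`D1.max_rect`, `a = -141/100`, `b = 141/100`) for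
`± w - L' cosh (p / (A' s)) cos (y / 3)`, `A' = 3 (A + 1)`, `L' = L / (cosh (1.41/(A' s)) cos (YY/3))`,
then `cosh (p/(A's)) / cosh (1.41/(A's)) ≤ 2 exp (-0.001/(A's)) ≤ C s^3` for `|p| ≤ 1.409`. -/
theorem barrier (A : ℝ) (hA : 0 ≤ A) : ∃ C : ℝ, 0 ≤ C ∧ ∀ (s mu L M : ℝ)
    (w w1 w2 v1 v2 : ℝ → ℝ → ℝ), 0 < s → s ≤ 1 → 0 ≤ mu → mu ≤ A → 0 ≤ L → 0 ≤ M →
    ContinuousOn (fun z : ℝ × ℝ => w z.1 z.2)
      (Icc (-(141 / 100) : ℝ) (141 / 100) ×ˢ Icc (-YY) YY) →
    (∀ p ∈ Ioo (-(141 / 100) : ℝ) (141 / 100), ∀ y ∈ Ioo (-YY) YY,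
      HasDerivAt (fun p => w p y) (w1 p y) p) →
    (∀ p ∈ Ioo (-(141 / 100) : ℝ) (141 / 100), ∀ y ∈ Ioo (-YY) YY,
      HasDerivAt (fun p => w1 p y) (w2 p y) p) →
    (∀ p ∈ Ioo (-(141 / 100) : ℝ) (141 / 100), ∀ y ∈ Ioo (-YY) YY,
      HasDerivAt (fun y => w p y) (v1 p y) y) →
    (∀ p ∈ Ioo (-(141 / 100) : ℝ) (141 / 100), ∀ y ∈ Ioo (-YY) YY,
      HasDerivAt (fun y => v1 p y) (v2 p y) y) →
    (∀ p ∈ Ioo (-(141 / 100) : ℝ) (141 / 100), ∀ y ∈ Ioo (-YY) YY,
      |v2 p y + s ^ 2 * mu * chi y * w2 p y| ≤ M) →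
    (∀ p ∈ Icc (-(141 / 100) : ℝ) (141 / 100), w p (-YY) = 0 ∧ w p YY = 0) →
    (∀ p ∈ Icc (-(141 / 100) : ℝ) (141 / 100), ∀ y ∈ Icc (-YY) YY, |w p y| ≤ L) →
    ∀ p : ℝ, |p| ≤ 1409 / 1000 → ∀ y ∈ Icc (-YY) YY, |w p y| ≤ 3 * M + C * L * s ^ 3 := by
  refine ⟨24 * 10 ^ 9 * (3 * (A + 1)) ^ 3, by positivity, ?_⟩
  intro s mu L M w w1 w2 v1 v2 hs _ hmu hmuA hL hM hw h1 h2 h3 h4 h5 h6 h7 p hp y hy
  rw [abs_le]
  constructor
  · have := barr_one A hA s mu L M (fun p y => -w p y) (fun p y => -w1 p y) (fun p y => -w2 p y)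
      (fun p y => -v1 p y) (fun p y => -v2 p y) hs hmu hmuA hL hM hw.neg
      (fun p hp y hy => (h1 p hp y hy).neg) (fun p hp y hy => (h2 p hp y hy).neg)
      (fun p hp y hy => (h3 p hp y hy).neg) (fun p hp y hy => (h4 p hp y hy).neg)
      (fun p hp y hy => by have := (abs_le.1 (h5 p hp y hy)).2; linarith)
      (fun p hp => by simp [h6 p hp])
      (fun p hp y hy => by have := (abs_le.1 (h7 p hp y hy)).1; linarith) p hp y hy
    linarith
  · exact barr_one A hA s mu L M w w1 w2 v1 v2 hs hmu hmuA hL hM hw h1 h2 h3 h4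
      (fun p hp y hy => (abs_le.1 (h5 p hp y hy)).1) h6
      (fun p hp y hy => (abs_le.1 (h7 p hp y hy)).2) p hp y hy

end

end P229
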