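import Vale.Agent.P229.D2.StepDefs

/-!
# P229, block D2, module JETS (helper75)
-/

namespace P229

open Set Real
open scoped ContDiff

noncomputable section

open D1 (CJet)

private theorem jets_add {f g : ℕ → ℝ → ℝ → ℝ} (hf : CJet f) (hg : CJet g) :
    CJet (fun n p y => f n p y + g n p y) :=
  ⟨fun n => (hf.cont n).add (hg.cont n), fun n p y hy => (hf.der n p y hy).add (hg.der n p y hy)⟩

/-- module JETS -/
theorem TJ.OK.add {T D : TJ} (hT : T.OK) (hD : D.OK) : (T.add D).OK where
  cW := jets_add hT.cW hD.cW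
  cV := jets_add hT.cV hD.cV
  cX := jets_add hT.cX hD.cX
  hV := fun n p y hy => (hT.hV n p y hy).add (hD.hV n p y hy)
  hX := fun n p y hy => (hT.hX n p y hy).add (hD.hX n p y hy)

/-- module JETS -/
theorem CJet.dpn_eq {f : ℕ → ℝ → ℝ → ℝ} (hf : CJet f) (n m : ℕ) (p : ℝ) {y : ℝ} (hy : y ∈ IY) :
    dpn n (f m) p y = f (n + m) p y := by
  unfold dpn
  induction n generalizing p with
  | zero => simp
  | succ n ih =>
    rw [iteratedDeriv_succ]
    have h1 : iteratedDeriv n (fun t => f m t y) = fun t => f (n + m) t y := funext fun t => ih t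
    rw [h1]
    have h2 : n + 1 + m = n + m + 1 := by ring
    rw [h2]
    exact (hf.der (n + m) p y hy).deriv

private theorem jets_iter {f : ℕ → ℝ → ℝ} (hf : ∀ n p, HasDerivAt (f n) (f (n + 1) p) p)
    (n : ℕ) : iteratedDeriv n (f 0) = f n := by
  induction n with
  | zero => simp
  | succ n ih =>
    rw [iteratedDeriv_succ, ih]
    funext p
    exact (hf n p).deriv

private theorem jets_smooth {f : ℕ → ℝ → ℝ} (hf : ∀ n p, HasDerivAt (f n) (f (n + 1) p) p) :
    ContDiff ℝ ∞ (f 0) := by
  rw [contDiff_iff_iteratedDeriv]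
  refine ⟨fun n _ => ?_, fun n _ => ?_⟩
  · rw [jets_iter hf]
    exact continuous_iff_continuousAt.2 fun p => (hf n p).continuousAt
  · rw [jets_iter hf]
    exact fun p => (hf n p).differentiableAt

/-- module JETS -/
theorem CJet.ps {f : ℕ → ℝ → ℝ → ℝ} (hf : CJet f) (m : ℕ) : PS (f m) where
  cd := fun y hy => by
    have h := jets_smooth (f := fun n t => f (n + m) t y) (fun n p => by
      have := hf.der (n + m) p y hy
      have e : n + 1 + m = n + m + 1 := by ring
      simp only [e]
      exact this)
    simpa using h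
  cont := fun n => by
    refine (hf.cont (n + m)).congr fun z hz => ?_
    show dpn n (f m) z.1 z.2 = f (n + m) z.1 z.2
    exact CJet.dpn_eq hf n m z.1 hz.2

/-- module JETS -/
theorem PS.cjet {F : ℝ → ℝ → ℝ} (hF : PS F) : CJet (fun n => dpn n F) where
  cont := fun n => hF.cont n
  der := fun n p y hy => by
    have h1 : (fun t => dpn n F t y) = iteratedDeriv n (fun t => F t y) := rfl
    rw [h1]
    have h2 : dpn (n + 1) F p y = deriv (iteratedDeriv n (fun t => F t y)) p := by
      unfold dpn
      rw [iteratedDeriv_succ]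
    show HasDerivAt _ (dpn (n + 1) F p y) p
    rw [h2]
    have h3 : Differentiable ℝ (iteratedDeriv n (fun t => F t y)) :=
      (hF.cd y hy).differentiable_iteratedDeriv n (by exact_mod_cast WithTop.coe_lt_top n)
    exact (h3 p).hasDerivAt

end

end P229
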