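import Vale.Agent.P229.D2.Slow

/-!
# P229, block D2, module SLOW_ADD (helper75)
-/

namespace P229

open Set Real
open scoped ContDiff

noncomputable section

/-- module SLOW_ADD -/
theorem dpn_add {F G : ℝ → ℝ → ℝ} (hF : PS F) (hG : PS G) (n : ℕ) {p y : ℝ} (hy : y ∈ IY) :
    dpn n (fun p y => F p y + G p y) p y = dpn n F p y + dpn n G p y := by
  have hin : ((n : ℕ∞) : ℕ∞ω) ≤ ∞ := by exact_mod_cast le_top
  exact iteratedDeriv_fun_add ((hF.cd y hy).of_le hin).contDiffAt ((hG.cd y hy).of_le hin).contDiffAt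

/-- module SLOW_ADD -/
theorem dpn_sub {F G : ℝ → ℝ → ℝ} (hF : PS F) (hG : PS G) (n : ℕ) {p y : ℝ} (hy : y ∈ IY) :
    dpn n (fun p y => F p y - G p y) p y = dpn n F p y - dpn n G p y := by
  have hin : ((n : ℕ∞) : ℕ∞ω) ≤ ∞ := by exact_mod_cast le_top
  exact iteratedDeriv_fun_sub ((hF.cd y hy).of_le hin).contDiffAt ((hG.cd y hy).of_le hin).contDiffAt

/-- module SLOW_ADD -/
theorem PS.add {F G : ℝ → ℝ → ℝ} (hF : PS F) (hG : PS G) : PS (fun p y => F p y + G p y) := by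
  refine ⟨fun y hy => (hF.cd y hy).add (hG.cd y hy), fun n => ?_⟩
  refine ((hF.cont n).add (hG.cont n)).congr ?_
  rintro ⟨p, y⟩ hq
  exact dpn_add hF hG n hq.2

/-- module SLOW_ADD -/
theorem PS.sub {F G : ℝ → ℝ → ℝ} (hF : PS F) (hG : PS G) : PS (fun p y => F p y - G p y) := by
  refine ⟨fun y hy => (hF.cd y hy).sub (hG.cd y hy), fun n => ?_⟩
  refine ((hF.cont n).sub (hG.cont n)).congr ?_
  rintro ⟨p, y⟩ hq
  exact dpn_sub hF hG n hq.2

/-- module SLOW_ADD -/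
theorem SlB.add {s : ℝ} {N : ℕ} {C D : ℝ} {F G : ℝ → ℝ → ℝ} (hF : PS F) (hG : PS G)
    (hs : 0 ≤ s) (h1 : SlB s N C F) (h2 : SlB s N D G) :
    SlB s N (C + D) (fun p y => F p y + G p y) := by
  intro n hn p y hy
  rw [dpn_add hF hG n hy]
  calc |dpn n F p y + dpn n G p y| * s ^ n
      ≤ (|dpn n F p y| + |dpn n G p y|) * s ^ n :=
        mul_le_mul_of_nonneg_right (abs_add_le _ _) (by positivity)
    _ = |dpn n F p y| * s ^ n + |dpn n G p y| * s ^ n := by ring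
    _ ≤ C + D := add_le_add (h1 n hn p y hy) (h2 n hn p y hy)

/-- module SLOW_ADD -/
theorem SlB.sub {s : ℝ} {N : ℕ} {C D : ℝ} {F G : ℝ → ℝ → ℝ} (hF : PS F) (hG : PS G)
    (hs : 0 ≤ s) (h1 : SlB s N C F) (h2 : SlB s N D G) :
    SlB s N (C + D) (fun p y => F p y - G p y) := by
  intro n hn p y hy
  rw [dpn_sub hF hG n hy]
  calc |dpn n F p y - dpn n G p y| * s ^ n
      ≤ (|dpn n F p y| + |dpn n G p y|) * s ^ n :=
        mul_le_mul_of_nonneg_right (abs_sub _ _) (by positivity)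
    _ = |dpn n F p y| * s ^ n + |dpn n G p y| * s ^ n := by ring
    _ ≤ C + D := add_le_add (h1 n hn p y hy) (h2 n hn p y hy)

private theorem slow_add_yfun (g : ℝ → ℝ) (n : ℕ) (p y : ℝ) :
    dpn n (fun _ y => g y) p y = if n = 0 then g y else 0 := by
  unfold dpn
  rw [iteratedDeriv_const]

/-- module SLOW_ADD: functions of `y` only -/
theorem PS.yfun {g : ℝ → ℝ} (hg : ContinuousOn g IY) : PS (fun _ y => g y) := by
  refine ⟨fun y _ => contDiff_const, fun n => ?_⟩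
  by_cases hn : n = 0
  · have h : ContinuousOn (fun q : ℝ × ℝ => g q.2) (univ ×ˢ IY) :=
      hg.comp continuousOn_snd fun q hq => hq.2
    refine h.congr ?_
    rintro ⟨p, y⟩ _
    change dpn n (fun _ y => g y) p y = g y
    rw [slow_add_yfun, if_pos hn]
  · refine (continuousOn_const (c := (0 : ℝ))).congr ?_
    rintro ⟨p, y⟩ _
    change dpn n (fun _ y => g y) p y = 0
    rw [slow_add_yfun, if_neg hn]

/-- module SLOW_ADD -/
theorem SlB.yfun {s : ℝ} {N : ℕ} {C : ℝ} {g : ℝ → ℝ} (hC : ∀ y ∈ IY, |g y| ≤ C) (hC0 : 0 ≤ C) :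
    SlB s N C (fun _ y => g y) := by
  intro n _ p y hy
  rw [slow_add_yfun]
  by_cases hn : n = 0
  · subst hn
    simpa using hC y hy
  · rw [if_neg hn, abs_zero, zero_mul]
    exact hC0

/-- module SLOW_ADD: functions of `p` only -/
theorem PS.pfun {g : ℝ → ℝ} (hg : ContDiff ℝ ∞ g) : PS (fun p _ => g p) := by
  refine ⟨fun y _ => hg, fun n => ?_⟩
  have h : Continuous fun q : ℝ × ℝ => iteratedDeriv n g q.1 :=
    (hg.continuous_iteratedDeriv n (by exact_mod_cast le_top)).comp continuous_fst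
  exact h.continuousOn

/-- module SLOW_ADD -/
theorem SlB.pfun {s : ℝ} {N : ℕ} {C : ℝ} {g : ℝ → ℝ} (hs : 0 ≤ s) (hs1 : s ≤ 1)
    (hC : ∀ n ≤ N, ∀ p, |iteratedDeriv n g p| ≤ C) : SlB s N C (fun p _ => g p) := by
  intro n hn p y _
  change |iteratedDeriv n g p| * s ^ n ≤ C
  calc |iteratedDeriv n g p| * s ^ n ≤ |iteratedDeriv n g p| * 1 :=
        mul_le_mul_of_nonneg_left (pow_le_one₀ hs hs1) (abs_nonneg _)
    _ = |iteratedDeriv n g p| := mul_one _
    _ ≤ C := hC n hn p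

end

end P229
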