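import Vale.Agent.P229.D2.DataDefs
import Vale.Agent.P229.D2.Jets
import Vale.Agent.P229.D2.SlowAdd
import Vale.Agent.P229.Prof

/-!
# P229, block D2, module BASE (helper75)
-/

namespace P229

open Set Real
open scoped ContDiff

noncomputable section

open D1 (CJet)

private lemma base_der {F : ℝ → ℝ} (hF : ContDiff ℝ ∞ F) (n : ℕ) (p : ℝ) :
    HasDerivAt (iteratedDeriv n F) (iteratedDeriv (n + 1) F p) p := by
  rw [iteratedDeriv_succ]
  have h : Differentiable ℝ (iteratedDeriv n F) :=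
    hF.differentiable_iteratedDeriv n (by exact_mod_cast ENat.natCast_lt_top n)
  exact (h p).hasDerivAt

private lemma base_supp {s C : ℝ} {N : ℕ} {F : ℝ → ℝ} (h : DataOK s N C F) (n : ℕ) (p : ℝ)
    (hp : 2 ≤ |p|) : iteratedDeriv n F p = 0 :=
  iteratedDeriv_zero_outside h.supp n p (by linarith)

private lemma base_F {s C : ℝ} {N : ℕ} {F : ℝ → ℝ} (h : DataOK s (N + 2) C F) (n : ℕ)
    (hn : n ≤ N + 4) (p : ℝ) : |iteratedDeriv n F p| * s ^ (n - 2) ≤ C := by
  rcases Nat.lt_or_ge n 2 with h2 | h2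
  · have e : n - 2 = 0 := by omega
    rw [e, pow_zero, mul_one]
    exact h.b n (by omega) p
  · obtain ⟨m, rfl⟩ : ∃ m, n = m + 2 := ⟨n - 2, by omega⟩
    have e : m + 2 - 2 = m := by omega
    rw [e]
    exact h.sl m (by omega) p

/-- module BASE: `D1.strip_solver_c` with `f = 0`, `Fm n = iteratedDeriv n Fm` -/
theorem base_ok (A C : ℝ) (N : ℕ) : ∃ C' : ℝ, 0 ≤ C' ∧ ∀ (s mu : ℝ) (Fm Fp : ℝ → ℝ), 0 < s →
    s ≤ 1 → 0 ≤ mu → mu ≤ A → DataOK s (N + 2) C Fm → DataOK s (N + 2) C Fp →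
    ∃ T : TJ, BaseOK s mu N C' Fm Fp T := by
  have hY : (0 : ℝ) < YY := by unfold YY; norm_num
  refine ⟨|C| + (|C| / YY + 2 * YY * (|A| * |C|)), by positivity, ?_⟩
  intro s mu Fm Fp hs hs1 hmu hmuA hFm hFp
  have hC0 : 0 ≤ C := (abs_nonneg _).trans (hFm.b 0 (by norm_num) 0)
  have hA0 : 0 ≤ A := hmu.trans hmuA
  rw [abs_of_nonneg hC0, abs_of_nonneg hA0]
  set CV : ℝ := C / YY + 2 * YY * (A * C) with hCV
  have hCV0 : 0 ≤ CV := by positivity
  have hc : ContinuousOn (fun y => s ^ 2 * mu * chi y) (Icc (-YY) YY) :=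
    (continuous_const.mul chi_contDiff.continuous).continuousOn
  have hc0 : ∀ y ∈ Icc (-YY) YY, 0 ≤ s ^ 2 * mu * chi y := fun y _ =>
    mul_nonneg (by positivity) (chi_nonneg y)
  have hf : CJet (fun _ _ _ => (0 : ℝ)) :=
    ⟨fun n => continuousOn_const, fun n p y _ => hasDerivAt_const p 0⟩
  obtain ⟨W, V, X, hW, hV, hX, h1, h2, h3, h4, h5⟩ := D1.strip_solver_c hc hc0 hf
    (fun _ _ _ _ => rfl) (Fm := fun n => iteratedDeriv n Fm) (Fp := fun n => iteratedDeriv n Fp)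
    (fun n p => base_der hFm.sm n p) (fun n p hp => base_supp hFm n p hp)
    (fun n p => base_der hFp.sm n p) (fun n p hp => base_supp hFp n p hp)
  -- bounds
  have hFb : ∀ F : ℝ → ℝ, DataOK s (N + 2) C F → ∀ n, n ≤ N + 4 → ∀ p,
      |iteratedDeriv n F p| ≤ C / s ^ (n - 2) := by
    intro F hF n hn p
    rw [le_div_iff₀ (by positivity)]
    exact base_F hF n hn p
  have hWb : ∀ n, n ≤ N + 4 → ∀ p, ∀ y ∈ IY, |W n p y| ≤ C / s ^ (n - 2) := by
    intro n hn p y hy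
    have := (h5 n (C / s ^ (n - 2)) 0 (hFb Fm hFm n hn) (hFb Fp hFp n hn)
      (fun p y _ => by simp)).1 p y hy
    simpa using this
  have hWb' : ∀ n, n ≤ N + 4 → ∀ p, ∀ y ∈ IY, |W n p y| * s ^ (n - 2) ≤ C := by
    intro n hn p y hy
    have := hWb n hn p y hy
    rwa [le_div_iff₀ (by positivity)] at this
  have hL : ∀ n, n ≤ N + 2 → ∀ p, ∀ y ∈ Icc (-YY) YY,
      |s ^ 2 * mu * chi y * W (n + 2) p y| ≤ A * C / s ^ (n - 2) := by
    intro n hn p y hy
    rw [le_div_iff₀ (by positivity), abs_mul, abs_of_nonneg (hc0 y hy)]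
    have b1 : |W (n + 2) p y| * s ^ n ≤ C := by
      have := hWb' (n + 2) (by omega) p y hy
      simpa using this
    have b2 : s ^ 2 * s ^ (n - 2) ≤ s ^ n := by
      rw [← pow_add]
      exact pow_le_pow_of_le_one hs.le hs1 (by omega)
    have b3 : mu * chi y ≤ A := by
      calc mu * chi y ≤ A * 1 := mul_le_mul hmuA (chi_le_one y) (chi_nonneg y) hA0
        _ = A := mul_one A
    have b4 : 0 ≤ mu * chi y := mul_nonneg hmu (chi_nonneg y)
    calc s ^ 2 * mu * chi y * |W (n + 2) p y| * s ^ (n - 2)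
        = (mu * chi y) * (|W (n + 2) p y| * (s ^ 2 * s ^ (n - 2))) := by ring
      _ ≤ (mu * chi y) * (|W (n + 2) p y| * s ^ n) :=
          mul_le_mul_of_nonneg_left (mul_le_mul_of_nonneg_left b2 (abs_nonneg _)) b4
      _ ≤ (mu * chi y) * C := mul_le_mul_of_nonneg_left b1 b4
      _ ≤ A * C := mul_le_mul_of_nonneg_right b3 hC0
  have hVb : ∀ n, n ≤ N + 2 → ∀ p, ∀ y ∈ IY, |V n p y| * s ^ (n - 2) ≤ CV := by
    intro n hn p y hy
    have hh := ((h5 n (C / s ^ (n - 2)) 0 (hFb Fm hFm n (by omega)) (hFb Fp hFp n (by omega))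
      (fun p y _ => by simp)).2 (A * C / s ^ (n - 2)) (hL n hn) p y hy).2
    have hp : 0 < s ^ (n - 2) := by positivity
    calc |V n p y| * s ^ (n - 2)
        ≤ ((C / s ^ (n - 2) + YY ^ 2 / 2 * 0) / YY + 2 * YY * (0 + A * C / s ^ (n - 2))) *
          s ^ (n - 2) := mul_le_mul_of_nonneg_right hh hp.le
      _ = CV := by rw [hCV]; field_simp; ring
  have hCle : C ≤ C + CV := by linarith
  have hCVle : CV ≤ C + CV := by linarith
  have hpw : ∀ (a : ℝ) (i j : ℕ), 0 ≤ a → i ≤ j → a * s ^ j ≤ a * s ^ i := fun a i j ha hij =>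
    mul_le_mul_of_nonneg_left (pow_le_pow_of_le_one hs.le hs1 hij) ha
  refine ⟨⟨W, V, X⟩, ⟨⟨hW, hV, hX, h1, h2⟩, ?_, ?_, ?_, ?_, ?_, ?_, ?_, ?_, ?_⟩⟩
  · intro p hp
    have := (h4 0 p hp).1
    simpa using this
  · intro p hp
    have := (h4 0 p hp).2
    simpa using this
  · intro n p hp y hy
    have := h3 n p hp y hy
    show X n p y = - s ^ 2 * mu * chi y * W (n + 2) p y
    rw [this]; ring
  · intro n hn p y hy
    have hFb3 : ∀ F : ℝ → ℝ, DataOK s (N + 2) C F → ∀ p, |iteratedDeriv n F p| ≤ C :=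
      fun F hF p => hF.b n hn p
    have := (h5 n C 0 (hFb3 Fm hFm) (hFb3 Fp hFp) (fun p y _ => by simp)).1 p y hy
    show |W n p y| ≤ _
    have h6 : |W n p y| ≤ C := by simpa using this
    linarith
  · intro n hn p y hy
    have := hVb n (by omega) p y hy
    have e : n - 2 = 0 := by omega
    rw [e, pow_zero, mul_one] at this
    show |V n p y| ≤ _
    linarith
  · intro n hn p y hy
    show |dpn n (W 1) p y| * s ^ n ≤ _
    rw [CJet.dpn_eq hW n 1 p hy]
    exact ((hpw _ (n + 1 - 2) n (abs_nonneg _) (by omega)).trans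
      (hWb' (n + 1) (by omega) p y hy)).trans hCle
  · intro n hn p y hy
    show |dpn n (V 0) p y| * s ^ n ≤ _
    rw [CJet.dpn_eq hV n 0 p hy]
    exact ((hpw _ (n + 0 - 2) n (abs_nonneg _) (by omega)).trans
      (hVb (n + 0) (by omega) p y hy)).trans hCVle
  · intro n hn p y hy
    show |dpn n (W 2) p y| * s ^ n ≤ _
    rw [CJet.dpn_eq hW n 2 p hy]
    exact ((hpw _ (n + 2 - 2) n (abs_nonneg _) (by omega)).trans
      (hWb' (n + 2) (by omega) p y hy)).trans hCle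
  · intro n hn p y hy
    show |dpn n (V 1) p y| * s ^ n ≤ _
    rw [CJet.dpn_eq hV n 1 p hy]
    exact ((hpw _ (n + 1 - 2) n (abs_nonneg _) (by omega)).trans
      (hVb (n + 1) (by omega) p y hy)).trans hCVle

end

end P229
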