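import Vale.Agent.P229.D2.StepDefs
import Vale.Agent.P229.Prof

/-!
# P229, block D2, module KAP (helper75)
-/

namespace P229

open Set Real
open scoped ContDiff

noncomputable section

/-- module KAP -/
theorem kap_contDiff : ContDiff ℝ ∞ kap := by
  unfold kap
  exact (Real.smoothTransition.contDiff.comp (by fun_prop)).mul
    (Real.smoothTransition.contDiff.comp (by fun_prop))

/-- module KAP -/
theorem kap_eq_one {p : ℝ} (h : |p| ≤ 141 / 100) : kap p = 1 := by
  have h1 := abs_le.1 h
  unfold kap
  rw [Real.smoothTransition.one_of_one_le (by linarith), Real.smoothTransition.one_of_one_le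
    (by linarith), one_mul]

/-- module KAP -/
theorem kap_eq_zero {p : ℝ} (h : 1415 / 1000 ≤ |p|) : kap p = 0 := by
  unfold kap
  rcases le_abs.1 h with h1 | h1
  · rw [Real.smoothTransition.zero_of_nonpos (by linarith), zero_mul]
  · rw [Real.smoothTransition.zero_of_nonpos (x := 200 * (1415 / 1000 + p)) (by linarith), mul_zero]

/-- module KAP -/
theorem kap_compact : HasCompactSupport kap := by
  refine HasCompactSupport.intro (isCompact_Icc (a := (-2 : ℝ)) (b := 2)) fun p hp => ?_
  refine kap_eq_zero ?_
  by_contra h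
  have h1 := abs_lt.1 (not_le.1 h)
  exact hp ⟨by linarith, by linarith⟩

/-- module KAP -/
theorem pt_contDiff : ContDiff ℝ ∞ pt := by
  unfold pt
  exact contDiff_id.mul cut_contDiff

/-- module KAP -/
theorem pt_compact : HasCompactSupport pt := by
  refine HasCompactSupport.intro (isCompact_Icc (a := (-2 : ℝ)) (b := 2)) fun p hp => ?_
  have h : 2 ≤ |p| := by
    by_contra h
    have h1 := abs_lt.1 (not_le.1 h)
    exact hp ⟨h1.1.le, h1.2.le⟩
  unfold pt
  rw [cut_eq_zero h, mul_zero]

/-- module KAP -/
theorem pt_eq {p : ℝ} (h : |p| ≤ 3 / 2) : pt p = p := by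
  unfold pt
  rw [cut_eq_one h, mul_one]

end

end P229
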