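import Vale.Agent.P229.D2.PPAlg

/-!
# P229, block D2, module RESU (helper75)
-/

namespace P229

open Set Real
open scoped ContDiff

noncomputable section

private lemma resU_alg {A C C2 R e β βx βy βxx X mu p q upp upy B : ℝ} (hA : 0 ≤ A) (hC : 0 ≤ C)
    (hC2 : 0 ≤ C2) (hR0 : 0 ≤ R) (hR1 : R ≤ 1) (he0 : 0 ≤ e) (he1 : e ≤ 1)
    (h1 : |β| ≤ A * e) (h2 : |βx| ≤ A * e) (h3 : |βy| ≤ A * e) (h4 : |βxx + e * X| ≤ A * (R * e))
    (hX : |X| ≤ 1) (hmu : |mu| ≤ C) (hp : |p| ≤ C) (hupp : |upp| ≤ C) (hupy : |upy| ≤ C)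
    (hq : |q| ≤ C2) (hB : B = 1 + R * β) (hB2 : |B| ≤ 2) :
    |2 * (R * βx * q) * upy + (R * βx * q) ^ 2 * upp
      - B * (mu - R * (p ^ 2 + q ^ 2)) * βxx * upp - e * mu * X * upp
      + R * (q * βy - B * p * βx)| ≤
      (2 * A * C2 * C + A ^ 2 * C2 ^ 2 * C + 2 * (C + (C ^ 2 + C2 ^ 2)) * A * C
        + (A * C + 2 * (C ^ 2 + C2 ^ 2)) * C + (C2 * A + 2 * C * A)) * (R * e) := by
  have hRe : 0 ≤ R * e := mul_nonneg hR0 he0
  have hAe : A * e ≤ A := by nlinarith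
  have t1 : |2 * (R * βx * q) * upy| ≤ 2 * A * C2 * C * (R * e) := by
    rw [abs_mul, abs_mul, abs_mul, abs_mul, abs_of_nonneg hR0, abs_two]
    calc 2 * (R * |βx| * |q|) * |upy| ≤ 2 * (R * (A * e) * C2) * C := by gcongr
      _ = _ := by ring
  have t2 : |(R * βx * q) ^ 2 * upp| ≤ A ^ 2 * C2 ^ 2 * C * (R * e) := by
    rw [abs_mul, abs_pow, abs_mul, abs_mul, abs_of_nonneg hR0]
    calc (R * |βx| * |q|) ^ 2 * |upp| ≤ (R * (A * e) * C2) ^ 2 * C := by gcongr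
      _ = (A ^ 2 * C2 ^ 2 * C * (R * e)) * (R * e) := by ring
      _ ≤ (A ^ 2 * C2 ^ 2 * C * (R * e)) * 1 := by
          refine mul_le_mul_of_nonneg_left (mul_le_one₀ hR1 he0 he1) (by positivity)
      _ = _ := by ring
  have hpq : |p ^ 2 + q ^ 2| ≤ C ^ 2 + C2 ^ 2 := by
    calc |p ^ 2 + q ^ 2| ≤ |p ^ 2| + |q ^ 2| := abs_add_le _ _
      _ = |p| ^ 2 + |q| ^ 2 := by rw [abs_pow, abs_pow]
      _ ≤ _ := by gcongr
  have hm : |mu - R * (p ^ 2 + q ^ 2)| ≤ C + (C ^ 2 + C2 ^ 2) := by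
    calc |mu - R * (p ^ 2 + q ^ 2)| ≤ |mu| + |R * (p ^ 2 + q ^ 2)| := abs_sub _ _
      _ ≤ C + 1 * (C ^ 2 + C2 ^ 2) := by
          rw [abs_mul, abs_of_nonneg hR0]
          gcongr
      _ = _ := by ring
  have t3 : |B * (mu - R * (p ^ 2 + q ^ 2)) * (βxx + e * X) * upp| ≤
      2 * (C + (C ^ 2 + C2 ^ 2)) * A * C * (R * e) := by
    rw [abs_mul, abs_mul, abs_mul]
    calc |B| * |mu - R * (p ^ 2 + q ^ 2)| * |βxx + e * X| * |upp|
        ≤ 2 * (C + (C ^ 2 + C2 ^ 2)) * (A * (R * e)) * C := by gcongr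
      _ = _ := by ring
  have t4 : |(R * β * mu - B * (R * (p ^ 2 + q ^ 2))) * (e * X) * upp| ≤
      (A * C + 2 * (C ^ 2 + C2 ^ 2)) * C * (R * e) := by
    have h5 : |R * β * mu - B * (R * (p ^ 2 + q ^ 2))| ≤ R * (A * C + 2 * (C ^ 2 + C2 ^ 2)) := by
      calc |R * β * mu - B * (R * (p ^ 2 + q ^ 2))|
          ≤ |R * β * mu| + |B * (R * (p ^ 2 + q ^ 2))| := abs_sub _ _
        _ ≤ R * A * C + 2 * (R * (C ^ 2 + C2 ^ 2)) := by
            rw [abs_mul, abs_mul, abs_mul, abs_mul, abs_of_nonneg hR0]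
            have := h1.trans hAe
            gcongr
        _ = _ := by ring
    rw [abs_mul, abs_mul, abs_mul, abs_of_nonneg he0]
    calc |R * β * mu - B * (R * (p ^ 2 + q ^ 2))| * (e * |X|) * |upp|
        ≤ (R * (A * C + 2 * (C ^ 2 + C2 ^ 2))) * (e * 1) * C := by gcongr
      _ = _ := by ring
  have t5 : |R * (q * βy - B * p * βx)| ≤ (C2 * A + 2 * C * A) * (R * e) := by
    rw [abs_mul, abs_of_nonneg hR0]
    have h5 : |q * βy - B * p * βx| ≤ C2 * (A * e) + 2 * C * (A * e) := by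
      calc |q * βy - B * p * βx| ≤ |q * βy| + |B * p * βx| := abs_sub _ _
        _ ≤ _ := by
            rw [abs_mul, abs_mul, abs_mul]
            gcongr
    calc R * |q * βy - B * p * βx| ≤ R * (C2 * (A * e) + 2 * C * (A * e)) := by gcongr
      _ = _ := by ring
  have hsplit : 2 * (R * βx * q) * upy + (R * βx * q) ^ 2 * upp
      - B * (mu - R * (p ^ 2 + q ^ 2)) * βxx * upp - e * mu * X * upp
      + R * (q * βy - B * p * βx)
      = 2 * (R * βx * q) * upy + (R * βx * q) ^ 2 * upp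
        - B * (mu - R * (p ^ 2 + q ^ 2)) * (βxx + e * X) * upp
        + (R * β * mu - B * (R * (p ^ 2 + q ^ 2))) * (e * X) * upp
        + R * (q * βy - B * p * βx) := by
    rw [hB]; ring
  rw [hsplit]
  calc _ ≤ |2 * (R * βx * q) * upy| + |(R * βx * q) ^ 2 * upp|
        + |B * (mu - R * (p ^ 2 + q ^ 2)) * (βxx + e * X) * upp|
        + |(R * β * mu - B * (R * (p ^ 2 + q ^ 2))) * (e * X) * upp|
        + |R * (q * βy - B * p * βx)| := by
        refine (abs_add_le _ _).trans (add_le_add ?_ le_rfl)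
        refine (abs_add_le _ _).trans (add_le_add ?_ le_rfl)
        refine (abs_sub _ _).trans (add_le_add ?_ le_rfl)
        exact abs_add_le _ _
    _ ≤ _ := by linarith

private lemma resU_coef (P : Par) {Ck x y : ℝ} (hCk1 : 1 ≤ Ck) (hk1 : ∀ y, |deriv kk y| ≤ Ck)
    (hk2 : ∀ y, |deriv (deriv kk) y| ≤ Ck) (hc1 : ∀ y, |deriv chi y| ≤ Ck) (hr0 : 0 < P.r)
    (hr1 : P.r ≤ 1) (hx : |x| ≤ 3 / 2) :
    |b0 P x y + bb P x y| ≤ (5 + 5 * Ck) * P.eps ∧ |b0x P x y + bbx P x y| ≤ (5 + 5 * Ck) * P.eps ∧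
    |b0y P x y + bby P x y| ≤ (5 + 5 * Ck) * P.eps ∧
    |(b0xx P x y + bbxx P x y) + P.eps * chi y| ≤ (5 + 5 * Ck) * (P.r ^ 2 * P.eps) := by
  have hR0 : (0 : ℝ) ≤ P.r ^ 2 := by positivity
  have hR1 : P.r ^ 2 ≤ 1 := pow_le_one₀ hr0.le hr1
  have he0 : 0 ≤ P.eps := by unfold Par.eps; positivity
  have hepsc : P.epsc = P.r ^ 2 * P.eps := P.epsc_eq'
  have hepsc0 : 0 ≤ P.epsc := by rw [hepsc]; positivity
  have hepsce : P.epsc ≤ P.eps := by rw [hepsc]; nlinarith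
  have heta0 : 0 ≤ P.eta := by unfold Par.eta; positivity
  have heta1 : P.eta ≤ 1 := by unfold Par.eta; exact pow_le_one₀ hr0.le hr1
  have hlam0 : 0 ≤ P.lam := by unfold Par.lam; positivity
  have hlam1 : P.lam ≤ 1 := by unfold Par.lam; exact pow_le_one₀ hr0.le hr1
  have hkk : ∀ z, |kk z| ≤ 1 := fun z => by
    rw [abs_of_nonneg (kk_nonneg z)]; exact kk_le_one z
  have hchi : |chi y| ≤ 1 := by rw [abs_of_nonneg (chi_nonneg y)]; exact chi_le_one y
  have hx2 : |x ^ 2| ≤ 9 / 4 := by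
    rw [abs_pow]
    calc |x| ^ 2 ≤ (3 / 2) ^ 2 := by gcongr
      _ = 9 / 4 := by norm_num
  have hx3 : |x ^ 3| ≤ 27 / 8 := by
    rw [abs_pow]
    calc |x| ^ 3 ≤ (3 / 2) ^ 3 := by gcongr
      _ = 27 / 8 := by norm_num
  have hx4 : |x ^ 4| ≤ 81 / 16 := by
    rw [abs_pow]
    calc |x| ^ 4 ≤ (3 / 2) ^ 4 := by gcongr
      _ = 81 / 16 := by norm_num
  have hpoly : |x ^ 2 / 2 - x ^ 4 / 12| ≤ 2 := by
    have a := abs_le.1 hx2
    have b := abs_le.1 hx4
    rw [abs_le]; constructor <;> linarith [a.1, a.2, b.1, b.2]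
  have hpoly3 : |x - x ^ 3 / 3| ≤ 3 := by
    have a := abs_le.1 hx
    have b := abs_le.1 hx3
    rw [abs_le]; constructor <;> linarith [a.1, a.2, b.1, b.2]
  have hpoly2 : |1 - x ^ 2| ≤ 4 := by
    have a := abs_le.1 hx2
    rw [abs_le]; constructor <;> linarith [a.1, a.2]
  have heC := mul_nonneg he0 (by linarith : (0 : ℝ) ≤ Ck)
  refine ⟨?_, ?_, ?_, ?_⟩
  · unfold b0 bb
    have u1 : |-(P.eps * chi y * x ^ 2 / 2)| ≤ P.eps * 2 := by
      rw [abs_neg, abs_div, abs_mul, abs_mul, abs_of_nonneg he0, abs_two]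
      calc P.eps * |chi y| * |x ^ 2| / 2 ≤ P.eps * 1 * (9 / 4) / 2 := by gcongr
        _ ≤ _ := by linarith
    have u2 : |P.epsc * kk y * (x ^ 2 / 2 - x ^ 4 / 12)| ≤ P.eps * 2 := by
      rw [abs_mul, abs_mul, abs_of_nonneg hepsc0]
      calc P.epsc * |kk y| * |x ^ 2 / 2 - x ^ 4 / 12| ≤ P.eps * 1 * 2 := by
            have := hkk y
            gcongr
        _ = _ := by ring
    have u3 : |P.eta * P.epsc * P.lam ^ 2 * kk (x / P.lam) * kk (y / P.lam)| ≤ P.eps := by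
      rw [abs_mul, abs_mul, abs_mul, abs_mul, abs_of_nonneg heta0, abs_of_nonneg hepsc0, abs_pow,
        abs_of_nonneg hlam0]
      calc P.eta * P.epsc * P.lam ^ 2 * |kk (x / P.lam)| * |kk (y / P.lam)|
          ≤ 1 * P.eps * 1 ^ 2 * 1 * 1 := by
            have := hkk (x / P.lam)
            have := hkk (y / P.lam)
            gcongr
        _ = _ := by ring
    have u4 := (abs_add_le (-(P.eps * chi y * x ^ 2 / 2) +
      P.epsc * kk y * (x ^ 2 / 2 - x ^ 4 / 12))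
      (P.eta * P.epsc * P.lam ^ 2 * kk (x / P.lam) * kk (y / P.lam))).trans
      (add_le_add (abs_add_le _ _) le_rfl)
    linarith
  · unfold b0x bbx
    have u1 : |-(P.eps * chi y * x)| ≤ P.eps * (3 / 2) := by
      rw [abs_neg, abs_mul, abs_mul, abs_of_nonneg he0]
      calc P.eps * |chi y| * |x| ≤ P.eps * 1 * (3 / 2) := by gcongr
        _ = _ := by ring
    have u2 : |P.epsc * kk y * (x - x ^ 3 / 3)| ≤ P.eps * 3 := by
      rw [abs_mul, abs_mul, abs_of_nonneg hepsc0]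
      calc P.epsc * |kk y| * |x - x ^ 3 / 3| ≤ P.eps * 1 * 3 := by
            have := hkk y
            gcongr
        _ = _ := by ring
    have u3 : |P.eta * P.epsc * P.lam * deriv kk (x / P.lam) * kk (y / P.lam)| ≤ P.eps * Ck := by
      rw [abs_mul, abs_mul, abs_mul, abs_mul, abs_of_nonneg heta0, abs_of_nonneg hepsc0,
        abs_of_nonneg hlam0]
      calc P.eta * P.epsc * P.lam * |deriv kk (x / P.lam)| * |kk (y / P.lam)|
          ≤ 1 * P.eps * 1 * Ck * 1 := by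
            have := hk1 (x / P.lam)
            have := hkk (y / P.lam)
            gcongr
        _ = _ := by ring
    have u4 := (abs_add_le (-(P.eps * chi y * x) + P.epsc * kk y * (x - x ^ 3 / 3))
      (P.eta * P.epsc * P.lam * deriv kk (x / P.lam) * kk (y / P.lam))).trans
      (add_le_add (abs_add_le _ _) le_rfl)
    linarith
  · unfold b0y bby
    have u1 : |-(P.eps * deriv chi y * x ^ 2 / 2)| ≤ P.eps * Ck * (9 / 8) := by
      rw [abs_neg, abs_div, abs_mul, abs_mul, abs_of_nonneg he0, abs_two]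
      calc P.eps * |deriv chi y| * |x ^ 2| / 2 ≤ P.eps * Ck * (9 / 4) / 2 := by
            have := hc1 y
            gcongr
        _ = _ := by ring
    have u2 : |P.epsc * deriv kk y * (x ^ 2 / 2 - x ^ 4 / 12)| ≤ P.eps * Ck * 2 := by
      rw [abs_mul, abs_mul, abs_of_nonneg hepsc0]
      have := hk1 y
      gcongr
    have u3 : |P.eta * P.epsc * P.lam * kk (x / P.lam) * deriv kk (y / P.lam)| ≤ P.eps * Ck := by
      rw [abs_mul, abs_mul, abs_mul, abs_mul, abs_of_nonneg heta0, abs_of_nonneg hepsc0,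
        abs_of_nonneg hlam0]
      calc P.eta * P.epsc * P.lam * |kk (x / P.lam)| * |deriv kk (y / P.lam)|
          ≤ 1 * P.eps * 1 * 1 * Ck := by
            have := hk1 (y / P.lam)
            have := hkk (x / P.lam)
            gcongr
        _ = _ := by ring
    have u4 := (abs_add_le (-(P.eps * deriv chi y * x ^ 2 / 2)
      + P.epsc * deriv kk y * (x ^ 2 / 2 - x ^ 4 / 12))
      (P.eta * P.epsc * P.lam * kk (x / P.lam) * deriv kk (y / P.lam))).trans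
      (add_le_add (abs_add_le _ _) le_rfl)
    linarith
  · have heq : (b0xx P x y + bbxx P x y) + P.eps * chi y
        = P.epsc * kk y * (1 - x ^ 2) + bbxx P x y := by unfold b0xx; ring
    rw [heq, ← hepsc]
    unfold bbxx
    have u2 : |P.epsc * kk y * (1 - x ^ 2)| ≤ P.epsc * 4 := by
      rw [abs_mul, abs_mul, abs_of_nonneg hepsc0]
      calc P.epsc * |kk y| * |1 - x ^ 2| ≤ P.epsc * 1 * 4 := by
            have := hkk y
            gcongr
        _ = _ := by ring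
    have u3 : |P.eta * P.epsc * deriv (deriv kk) (x / P.lam) * kk (y / P.lam)| ≤ P.epsc * Ck := by
      rw [abs_mul, abs_mul, abs_mul, abs_of_nonneg heta0, abs_of_nonneg hepsc0]
      calc P.eta * P.epsc * |deriv (deriv kk) (x / P.lam)| * |kk (y / P.lam)|
          ≤ 1 * P.epsc * Ck * 1 := by
            have := hk2 (x / P.lam)
            have := hkk (y / P.lam)
            gcongr
        _ = _ := by ring
    have u4 := abs_add_le (P.epsc * kk y * (1 - x ^ 2))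
      (P.eta * P.epsc * deriv (deriv kk) (x / P.lam) * kk (y / P.lam))
    have u5 := mul_nonneg hepsc0 (by linarith : (0 : ℝ) ≤ Ck)
    linarith

/-- module RESU: `EE` with the bump versus the linear part: `|EE - (u_yy + eps mu chi u_pp)|` is
`O(r^2 eps)` on bounded sets of the arguments (`EE0_eq` + the bump terms; `eta ≤ 1`). -/
theorem res_u (C : ℝ) : ∃ ρ C' : ℝ, 0 < ρ ∧ 0 ≤ C' ∧ ∀ (P : Par) (mu p y x uy upp upy uyy : ℝ),
    0 < P.r → P.r < ρ → |mu| ≤ C → |p| ≤ C → |x| ≤ 3 / 2 → |uy| ≤ C → |upp| ≤ C → |upy| ≤ C →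
    |EE P mu p y x uy upp upy uyy - (uyy + P.eps * mu * chi y * upp)| ≤
      C' * (P.r ^ 2 * P.eps) := by
  obtain ⟨Ck, hCk1, hk1, hk2, hc1, -, -, -⟩ := exists_Ck
  obtain ⟨A, hAdef⟩ : ∃ A : ℝ, A = 5 + 5 * Ck := ⟨_, rfl⟩
  have hA0 : 0 < A := by rw [hAdef]; linarith
  obtain ⟨D, hD⟩ : ∃ D : ℝ, D = |C| := ⟨_, rfl⟩
  have hD0 : 0 ≤ D := by rw [hD]; exact abs_nonneg _
  have hCD : C ≤ D := by rw [hD]; exact le_abs_self C
  refine ⟨min 1 (1 / (2 * A)),
    (2 * A * (2 * D) * D + A ^ 2 * (2 * D) ^ 2 * D + 2 * (D + (D ^ 2 + (2 * D) ^ 2)) * A * D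
        + (A * D + 2 * (D ^ 2 + (2 * D) ^ 2)) * D + ((2 * D) * A + 2 * D * A)),
    lt_min one_pos (by positivity), by positivity, ?_⟩
  intro P mu p y x uy upp upy uyy hr0 hr hmu hp hx huy hupp hupy
  have hr1 : P.r ≤ 1 := (hr.le.trans (min_le_left _ _))
  have hrA : P.r * A ≤ 1 / 2 := by
    have h1 : P.r ≤ 1 / (2 * A) := hr.le.trans (min_le_right _ _)
    rw [le_div_iff₀ (by positivity)] at h1
    linarith
  have hR0 : (0 : ℝ) ≤ P.r ^ 2 := by positivity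
  have hR1 : P.r ^ 2 ≤ 1 := pow_le_one₀ hr0.le hr1
  have hRr : P.r ^ 2 ≤ P.r := by nlinarith
  have he0 : 0 ≤ P.eps := by unfold Par.eps; positivity
  have he1 : P.eps ≤ 1 := by unfold Par.eps; exact pow_le_one₀ hr0.le hr1
  have hchi : |chi y| ≤ 1 := by rw [abs_of_nonneg (chi_nonneg y)]; exact chi_le_one y
  obtain ⟨b1, b2, b3, b4⟩ := resU_coef P (x := x) (y := y) hCk1 hk1 hk2 hc1 hr0 hr1 hx
  rw [← hAdef] at b1 b2 b3 b4
  obtain ⟨β, hβ⟩ : ∃ β : ℝ, β = b0 P x y + bb P x y := ⟨_, rfl⟩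
  rw [← hβ] at b1
  have hRβ : |P.r ^ 2 * β| ≤ 1 / 2 := by
    rw [abs_mul, abs_of_nonneg hR0]
    have h1 : |β| ≤ A * 1 := b1.trans (mul_le_mul_of_nonneg_left he1 hA0.le)
    calc P.r ^ 2 * |β| ≤ P.r * (A * 1) := mul_le_mul hRr h1 (abs_nonneg _) hr0.le
      _ ≤ 1 / 2 := by linarith
  have hBlow : 1 / 2 ≤ 1 + P.r ^ 2 * β := by have := (abs_le.1 hRβ).1; linarith
  have hBup : |1 + P.r ^ 2 * β| ≤ 2 := by
    rw [abs_of_pos (by linarith)]
    have := (abs_le.1 hRβ).2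
    linarith
  have hq : |-uy / (1 + P.r ^ 2 * β)| ≤ 2 * D := by
    rw [abs_div, abs_neg, abs_of_pos (by linarith : (0 : ℝ) < 1 + P.r ^ 2 * β),
      div_le_iff₀ (by linarith)]
    have := huy.trans hCD
    nlinarith
  have hfin := resU_alg (A := A) (C := D) (C2 := 2 * D) (R := P.r ^ 2) (e := P.eps) (β := β)
    (βx := b0x P x y + bbx P x y) (βy := b0y P x y + bby P x y)
    (βxx := b0xx P x y + bbxx P x y) (X := chi y) (mu := mu) (p := p)
    (q := -uy / (1 + P.r ^ 2 * β)) (upp := upp) (upy := upy) (B := 1 + P.r ^ 2 * β)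
    hA0.le hD0 (by positivity) hR0 hR1 he0 he1 b1 b2 b3 b4 hchi (hmu.trans hCD) (hp.trans hCD)
    (hupp.trans hCD) (hupy.trans hCD) hq rfl hBup
  have heq : EE P mu p y x uy upp upy uyy - (uyy + P.eps * mu * chi y * upp)
      = 2 * (P.r ^ 2 * (b0x P x y + bbx P x y) * (-uy / (1 + P.r ^ 2 * β))) * upy
        + (P.r ^ 2 * (b0x P x y + bbx P x y) * (-uy / (1 + P.r ^ 2 * β))) ^ 2 * upp
        - (1 + P.r ^ 2 * β) * (mu - P.r ^ 2 * (p ^ 2 + (-uy / (1 + P.r ^ 2 * β)) ^ 2))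
          * (b0xx P x y + bbxx P x y) * upp - P.eps * mu * chi y * upp
        + P.r ^ 2 * ((-uy / (1 + P.r ^ 2 * β)) * (b0y P x y + bby P x y)
          - (1 + P.r ^ 2 * β) * p * (b0x P x y + bbx P x y)) := by
    unfold EE EEalg
    rw [hβ]
    ring
  rw [heq]
  exact hfin

end

end P229
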