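import Vale.Agent.P229.Interface
import Vale.Agent.P229.C.Calc

/-!
# P229, block D2, module GOODU (helper75)
-/

namespace P229

open Set Real
open scoped ContDiff

noncomputable section

/-- module GOODU: facts on `GoodU` used here. All partial derivatives of `u` on the open rectangle
`|p| < 144/100`, `|y| < 208/100`. -/
structure UFacts (C : ℝ) (u : ℝ → ℝ → ℝ) : Prop where
  cu : ContinuousOn (Function.uncurry u) {z | |z.1| < 144 / 100 ∧ |z.2| < 208 / 100}
  cup : ContinuousOn (Function.uncurry (dx u)) {z | |z.1| < 144 / 100 ∧ |z.2| < 208 / 100}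
  cuy : ContinuousOn (Function.uncurry (dy u)) {z | |z.1| < 144 / 100 ∧ |z.2| < 208 / 100}
  hp : ∀ p y : ℝ, |p| < 144 / 100 → |y| < 208 / 100 → HasDerivAt (fun t => u t y) (dx u p y) p
  hpp : ∀ p y : ℝ, |p| < 144 / 100 → |y| < 208 / 100 →
    HasDerivAt (fun t => dx u t y) (dx (dx u) p y) p
  hppp : ∀ p y : ℝ, |p| < 144 / 100 → |y| < 208 / 100 →
    HasDerivAt (fun t => dx (dx u) t y) (dx (dx (dx u)) p y) p
  hy : ∀ p y : ℝ, |p| < 144 / 100 → |y| < 208 / 100 → HasDerivAt (fun t => u p t) (dy u p y) y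
  hyy : ∀ p y : ℝ, |p| < 144 / 100 → |y| < 208 / 100 →
    HasDerivAt (fun t => dy u p t) (dy (dy u) p y) y
  hyp : ∀ p y : ℝ, |p| < 144 / 100 → |y| < 208 / 100 →
    HasDerivAt (fun t => dy u t y) (dy (dx u) p y) p
  hypp : ∀ p y : ℝ, |p| < 144 / 100 → |y| < 208 / 100 →
    HasDerivAt (fun t => dy (dx u) t y) (dy (dx (dx u)) p y) p
  bu : ∀ p y : ℝ, |p| < 144 / 100 → |y| < 208 / 100 → |u p y| ≤ C
  bp : ∀ p y : ℝ, |p| < 144 / 100 → |y| < 208 / 100 → |dx u p y| ≤ C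
  bpp : ∀ p y : ℝ, |p| < 144 / 100 → |y| < 208 / 100 → |dx (dx u) p y| ≤ C
  bppp : ∀ p y : ℝ, |p| < 144 / 100 → |y| < 208 / 100 → |dx (dx (dx u)) p y| ≤ C
  bppy : ∀ p y : ℝ, |p| < 144 / 100 → |y| < 208 / 100 → |dy (dx (dx u)) p y| ≤ C

private theorem goodu_mvt {f f' : ℝ → ℝ} {R C : ℝ} (hf : ∀ t, |t| < R → HasDerivAt f (f' t) t)
    (hb : ∀ t, |t| < R → |f' t| ≤ C) {t : ℝ} (ht : |t| < R) : |f t - f 0| ≤ C * |t| := by
  have hR : 0 < R := lt_of_le_of_lt (abs_nonneg t) ht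
  have h := Convex.norm_image_sub_le_of_norm_hasDerivWithin_le (f := f) (f' := f') (C := C)
    (s := Ioo (-R) R) (x := 0) (y := t)
    (fun x hx => (hf x (abs_lt.2 ⟨hx.1, hx.2⟩)).hasDerivWithinAt)
    (fun x hx => by
      rw [Real.norm_eq_abs]
      exact hb x (abs_lt.2 ⟨hx.1, hx.2⟩))
    (convex_Ioo _ _) ⟨by linarith, hR⟩ ⟨(abs_lt.1 ht).1, (abs_lt.1 ht).2⟩
  simpa [Real.norm_eq_abs] using h

/-- module GOODU (symmetry of the mixed derivatives of a smooth function) -/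
theorem uFacts {P : Par} {mu C1 : ℝ} {u : ℝ → ℝ → ℝ} (hu : GoodU P mu C1 u) (h1 : 1 ≤ C1)
    (hr : 0 < P.r) (hr1 : P.r ≤ 1) : UFacts (10 * C1) u := by
  set S : Set (ℝ × ℝ) :=
    Ioo (-(144 / 100) : ℝ) (144 / 100) ×ˢ Ioo (-(208 / 100) : ℝ) (208 / 100) with hSdef
  have hS : IsOpen S := isOpen_Ioo.prod isOpen_Ioo
  have hsm := hu.smooth
  have hmem : ∀ p y : ℝ, |p| < 144 / 100 → |y| < 208 / 100 → (p, y) ∈ S := by
    intro p y hp hy
    exact ⟨⟨(abs_lt.1 hp).1, (abs_lt.1 hp).2⟩, ⟨(abs_lt.1 hy).1, (abs_lt.1 hy).2⟩⟩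
  have hset : {z : ℝ × ℝ | |z.1| < 144 / 100 ∧ |z.2| < 208 / 100} = S := by
    ext z
    simp only [mem_ofPred_eq, hSdef, mem_prod, mem_Ioo, abs_lt]
  have hx1 := C.contDiffOn_dx hS hsm
  have hy1 := C.contDiffOn_dy hS hsm
  have hx2 := C.contDiffOn_dx hS hx1
  have hx3 := C.contDiffOn_dx hS hx2
  have hxy := C.contDiffOn_dy hS hx1
  have hCr : C1 * P.r ≤ C1 := by
    have : C1 * P.r ≤ C1 * 1 := mul_le_mul_of_nonneg_left hr1 (by linarith)
    simpa using this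
  have habs : ∀ {p : ℝ}, |p| < 144 / 100 → ∀ {y : ℝ}, |y| < 208 / 100 →
      |dx u p y| ≤ 149 / 100 := by
    intro p hp y hy
    have e1 := hu.up p y hp hy
    have e2 : |dx u p y| ≤ |dx u p y - p| + |p| := by
      have := abs_add_le (dx u p y - p) p
      simpa using this
    linarith
  refine ⟨?_, ?_, ?_, ?_, ?_, ?_, ?_, ?_, ?_, ?_, ?_, ?_, ?_, ?_, ?_⟩
  · rw [hset]; exact hsm.continuousOn
  · rw [hset]; exact hx1.continuousOn
  · rw [hset]; exact hy1.continuousOn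
  · exact fun p y hp hy => C.hasDerivAt_dx hS hsm (hmem p y hp hy)
  · exact fun p y hp hy => C.hasDerivAt_dx hS hx1 (hmem p y hp hy)
  · exact fun p y hp hy => C.hasDerivAt_dx hS hx2 (hmem p y hp hy)
  · exact fun p y hp hy => C.hasDerivAt_dy hS hsm (hmem p y hp hy)
  · exact fun p y hp hy => C.hasDerivAt_dy hS hy1 (hmem p y hp hy)
  · intro p y hp hy
    rw [← C.dx_dy hS hsm (hmem p y hp hy)]
    exact C.hasDerivAt_dx hS hy1 (hmem p y hp hy)
  · intro p y hp hy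
    rw [← C.dx_dy hS hx1 (hmem p y hp hy)]
    exact C.hasDerivAt_dx hS hxy (hmem p y hp hy)
  · intro p y hp hy
    have h0 : |(0 : ℝ)| < 144 / 100 := by norm_num
    have e1 := goodu_mvt (f := fun t => u t y) (f' := fun t => dx u t y) (C := 149 / 100)
      (fun t ht => C.hasDerivAt_dx hS hsm (hmem t y ht hy)) (fun t ht => habs ht hy) hp
    have e2 := goodu_mvt (f := fun t => u 0 t) (f' := fun t => dy u 0 t) (C := C1)
      (fun t ht => C.hasDerivAt_dy hS hsm (hmem 0 t h0 ht)) (fun t ht => hu.uy 0 t h0 ht) hy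
    simp only [hu.u00, sub_zero] at e2
    have e3 : |u p y| ≤ |u p y - u 0 y| + |u 0 y| := by
      have := abs_add_le (u p y - u 0 y) (u 0 y)
      simpa using this
    have e4 : C1 * |y| ≤ C1 * (208 / 100) := mul_le_mul_of_nonneg_left hy.le (by linarith)
    have e5 : 149 / 100 * |p| ≤ 149 / 100 * (144 / 100) :=
      mul_le_mul_of_nonneg_left hp.le (by norm_num)
    linarith
  · intro p y hp hy
    have := habs hp hy
    linarith
  · intro p y hp hy
    have e1 := hu.upp p y hp hy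
    have e2 : |dx (dx u) p y| ≤ |dx (dx u) p y - 1| + 1 := by
      have := abs_add_le (dx (dx u) p y - 1) 1
      simpa using this
    linarith
  · intro p y hp hy
    have := hu.uppp p y hp hy
    linarith
  · intro p y hp hy
    have := hu.uppy p y hp hy
    linarith

end

end P229
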