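import Vale.Agent.P229.D2.DataDefs
import Vale.Agent.P229.D2.UFacts
import Vale.Agent.P229.D2.ResU
import Vale.Agent.P229.D2.Barr
import Vale.Agent.P229.D2.Kap

/-!
# P229, block D2, module CLOSE1 (helper75)
-/

namespace P229

open Set Real
open scoped ContDiff

noncomputable section

open D1 (CJet)

/-- module CLOSE1: `barrier` for `w = u - T0.W 0` -/
theorem close1 (C1 C : ℝ) (k b : ℕ) (h1 : 1 ≤ C1) (hk : 10 ≤ k) :
    ∃ ρ C' : ℝ, 0 < ρ ∧ 0 ≤ C' ∧ ∀ (r mu : ℝ) (u : ℝ → ℝ → ℝ) (T : TJ), 0 < r → r < ρ →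
      1 / C1 ≤ mu → mu ≤ C1 → GoodU ⟨r, k, b⟩ mu C1 u →
      BaseOK (r ^ (10 * k)) mu 0 C (fun p => kap p * u p (-YY)) (fun p => kap p * u p YY) T →
      ∀ p : ℝ, |p| ≤ 1409 / 1000 → ∀ y ∈ IY,
        |u p y - T.W 0 p y| ≤ C' * (r ^ 2 * (r ^ (10 * k)) ^ 2) := by
  obtain ⟨ρr, Cr, hρr, hCr, hres⟩ := res_u (C1 + 2)
  obtain ⟨Cb, hCb, hbar⟩ := barrier C1 (by linarith)
  refine ⟨min ρr 1, 3 * Cr + Cb * (10 * C1 + |C|), by positivity, by positivity, ?_⟩
  intro r mu u T hr0 hrρ hmu1 hmu2 hu hT p hp y hy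
  have hr1 : r < 1 := lt_of_lt_of_le hrρ (min_le_right _ _)
  have hrr : r < ρr := lt_of_lt_of_le hrρ (min_le_left _ _)
  have hmu0 : 0 ≤ mu := le_trans (by positivity) hmu1
  have hF := uFacts hu h1 hr0 hr1.le
  set s : ℝ := r ^ (10 * k) with hs
  have hs0 : 0 < s := by positivity
  have hs1 : s ≤ 1 := pow_le_one₀ hr0.le hr1.le
  have hYY : YY = 41 / 20 := rfl
  have heps : (⟨r, k, b⟩ : Par).eps = s ^ 2 := by
    simp only [Par.eps, hs]
    rw [← pow_mul]
    congr 1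
    ring
  -- inequalities on the closed rectangle
  have hbox : ∀ p ∈ Icc (-(141 / 100) : ℝ) (141 / 100), |p| < 144 / 100 := by
    intro p hp
    rw [abs_lt]
    constructor <;> linarith [hp.1, hp.2]
  have hboy : ∀ y ∈ Icc (-YY) YY, |y| < 208 / 100 := by
    intro y hy
    rw [hYY] at hy
    rw [abs_lt]
    constructor <;> linarith [hy.1, hy.2]
  have hin : ∀ y ∈ Ioo (-YY) YY, IY ∈ nhds y := fun y hy => Icc_mem_nhds hy.1 hy.2
  have hp3 : ∀ p ∈ Icc (-(141 / 100) : ℝ) (141 / 100), |p| ≤ 3 := fun p hp =>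
    (hbox p hp).le.trans (by norm_num)
  have key := hbar s mu (10 * C1 + |C|) (Cr * (r ^ 2 * s ^ 2))
    (fun p y => u p y - T.W 0 p y) (fun p y => dx u p y - T.W 1 p y)
    (fun p y => dx (dx u) p y - T.W 2 p y) (fun p y => dy u p y - T.V 0 p y)
    (fun p y => dy (dy u) p y - T.X 0 p y) hs0 hs1 hmu0 hmu2 (by positivity) (by positivity)
    ?_ ?_ ?_ ?_ ?_ ?_ ?_ ?_ p hp y hy
  · refine key.trans ?_
    have hs2 : s ≤ r ^ 2 := by
      rw [hs]
      exact pow_le_pow_of_le_one hr0.le hr1.le (by omega)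
    have h3 : s ^ 3 ≤ r ^ 2 * s ^ 2 := by
      have : s ^ 3 = s * s ^ 2 := by ring
      rw [this]
      gcongr
    have h4 : Cb * (10 * C1 + |C|) * s ^ 3 ≤ Cb * (10 * C1 + |C|) * (r ^ 2 * s ^ 2) := by
      gcongr
    calc 3 * (Cr * (r ^ 2 * s ^ 2)) + Cb * (10 * C1 + |C|) * s ^ 3
        ≤ 3 * (Cr * (r ^ 2 * s ^ 2)) + Cb * (10 * C1 + |C|) * (r ^ 2 * s ^ 2) := by linarith
      _ = _ := by ring
  · refine ContinuousOn.sub ?_ ?_
    · exact hF.cu.mono fun z hz => ⟨hbox _ hz.1, hboy _ hz.2⟩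
    · exact (hT.ok.cW.cont 0).mono (prod_mono (subset_univ _) subset_rfl)
  · intro p hp y hy
    exact (hF.hp p y (hbox p (Ioo_subset_Icc_self hp)) (hboy y (Ioo_subset_Icc_self hy))).sub
      (hT.ok.cW.der 0 p y (Ioo_subset_Icc_self hy))
  · intro p hp y hy
    exact (hF.hpp p y (hbox p (Ioo_subset_Icc_self hp)) (hboy y (Ioo_subset_Icc_self hy))).sub
      (hT.ok.cW.der 1 p y (Ioo_subset_Icc_self hy))
  · intro p hp y hy
    exact (hF.hy p y (hbox p (Ioo_subset_Icc_self hp)) (hboy y (Ioo_subset_Icc_self hy))).sub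
      ((hT.ok.hV 0 p y (Ioo_subset_Icc_self hy)).hasDerivAt (hin y hy))
  · intro p hp y hy
    exact (hF.hyy p y (hbox p (Ioo_subset_Icc_self hp)) (hboy y (Ioo_subset_Icc_self hy))).sub
      ((hT.ok.hX 0 p y (Ioo_subset_Icc_self hy)).hasDerivAt (hin y hy))
  · intro p hp y hy
    have hpc := Ioo_subset_Icc_self hp
    have hyc := Ioo_subset_Icc_self hy
    have hp' := hbox p hpc
    have hy' := hboy y hyc
    have hpde := hu.pde p y hp' hy'
    have e1 := abs_le.1 (hu.up p y hp' hy')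
    have e2 := hu.uy p y hp' hy'
    have e3 := abs_le.1 (hu.upp p y hp' hy')
    have e4 := hu.upy p y hp' hy'
    have hr := hres ⟨r, k, b⟩ mu p y (dx u p y) (dy u p y) (dx (dx u) p y) (dy (dx u) p y)
      (dy (dy u) p y) hr0 hrr (by rw [abs_of_nonneg hmu0]; linarith)
      (hp'.le.trans (by linarith))
      (by rw [abs_le]; constructor <;> linarith [hpc.1, hpc.2, e1.1, e1.2])
      (by linarith) (by rw [abs_le]; constructor <;> linarith [e3.1, e3.2])
      (by linarith)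
    rw [hpde, zero_sub, abs_neg, heps] at hr
    have hX := hT.eq 0 p (hp3 p hpc) y hyc
    have e5 : dy (dy u) p y - T.X 0 p y + s ^ 2 * mu * chi y * (dx (dx u) p y - T.W 2 p y) =
        dy (dy u) p y + s ^ 2 * mu * chi y * dx (dx u) p y := by
      rw [hX]; ring
    rw [e5]
    exact hr
  · intro p hp
    have hkap : kap p = 1 := kap_eq_one (by rw [abs_le]; exact ⟨by linarith [hp.1], hp.2⟩)
    have hl := hT.low p (hp3 p hp)
    have hh := hT.high p (hp3 p hp)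
    simp only [hkap, one_mul] at hl hh
    rw [hl, hh]
    simp
  · intro p hp y hy
    have e1 := hF.bu p y (hbox p hp) (hboy y hy)
    have e2 := hT.bW 0 (by norm_num) p y hy
    calc |u p y - T.W 0 p y| ≤ |u p y| + |T.W 0 p y| := abs_sub _ _
      _ ≤ 10 * C1 + |C| := add_le_add e1 (e2.trans (le_abs_self C))

end

end P229
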