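import Vale.Agent.P229.Defs

/-!
# P229, block D2, module LANDAU (helper75)
-/

namespace P229

open Set Real
open scoped ContDiff

noncomputable section

/-- module LANDAU: `f (x + h) = f x + h f' x + h^2/2 f'' ξ` -/
theorem landau {f f' f'' : ℝ → ℝ} {a b h A M : ℝ} (hh : 0 < h)
    (h1 : ∀ x ∈ Icc a b, HasDerivAt f (f' x) x) (h2 : ∀ x ∈ Icc a b, HasDerivAt f' (f'' x) x)
    (hA : ∀ x ∈ Icc a b, |f x| ≤ A) (hM : ∀ x ∈ Icc a b, |f'' x| ≤ M) :
    ∀ x ∈ Icc a (b - h), |f' x| ≤ 2 * A / h + M * h := by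
  intro x hx
  have hsub : ∀ t ∈ Icc x (x + h), t ∈ Icc a b := fun t ht =>
    ⟨hx.1.trans ht.1, ht.2.trans (by linarith [hx.2])⟩
  obtain ⟨c, hc, hc'⟩ := exists_hasDerivAt_eq_slope f f' (show x < x + h by linarith)
    (fun t ht => (h1 t (hsub t ht)).continuousAt.continuousWithinAt)
    (fun t ht => h1 t (hsub t (Ioo_subset_Icc_self ht)))
  have hcI : c ∈ Icc x (x + h) := Ioo_subset_Icc_self hc
  obtain ⟨d, hd, hd'⟩ := exists_hasDerivAt_eq_slope f' f'' hc.1
    (fun t ht => (h2 t (hsub t ⟨ht.1, ht.2.trans hcI.2⟩)).continuousAt.continuousWithinAt)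
    (fun t ht => h2 t (hsub t ⟨ht.1.le, ht.2.le.trans hcI.2⟩))
  have hdM := hM d (hsub d ⟨hd.1.le, hd.2.le.trans hcI.2⟩)
  have hM0 : 0 ≤ M := (abs_nonneg _).trans hdM
  have e1 : |f' c| ≤ 2 * A / h := by
    rw [hc', show x + h - x = h by ring, abs_div, abs_of_pos hh]
    apply div_le_div_of_nonneg_right _ hh.le
    have a1 := hA x (hsub x ⟨le_rfl, by linarith⟩)
    have a2 := hA (x + h) (hsub (x + h) ⟨by linarith, le_rfl⟩)
    calc |f (x + h) - f x| ≤ |f (x + h)| + |f x| := abs_sub _ _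
      _ ≤ 2 * A := by linarith
  have e2 : |f' c - f' x| ≤ M * h := by
    have hcx : 0 < c - x := by linarith [hc.1]
    have : f' c - f' x = f'' d * (c - x) := by
      rw [hd']
      field_simp
    rw [this, abs_mul, abs_of_pos hcx]
    exact mul_le_mul hdM (by linarith [hc.2]) hcx.le hM0
  have e3 : f' x = f' c - (f' c - f' x) := by ring
  rw [e3]
  exact (abs_sub _ _).trans (by linarith)

/-- module LANDAU: a function vanishing at both ends of `[-YY, YY]` -/
theorem zero_ends {f f' f'' : ℝ → ℝ} {M : ℝ} (hc : ContinuousOn f (Icc (-YY) YY))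
    (h1 : ∀ x ∈ Ioo (-YY) YY, HasDerivAt f (f' x) x)
    (hc' : ContinuousOn f' (Icc (-YY) YY))
    (h2 : ∀ x ∈ Ioo (-YY) YY, HasDerivAt f' (f'' x) x)
    (e1 : f (-YY) = 0) (e2 : f YY = 0) (hM : ∀ x ∈ Ioo (-YY) YY, |f'' x| ≤ M) :
    ∀ x ∈ Icc (-YY) YY, |f' x| ≤ 2 * YY * M := by
  have hY : (0 : ℝ) < YY := by unfold YY; norm_num
  have hM0 : 0 ≤ M := (abs_nonneg _).trans (hM 0 ⟨by linarith, hY⟩)
  obtain ⟨c, hcI, hc0⟩ := exists_hasDerivAt_eq_slope f f' (show -YY < YY by linarith) hc h1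
  rw [e1, e2, sub_zero, zero_div] at hc0
  have key : ∀ s t : ℝ, s ∈ Icc (-YY) YY → t ∈ Icc (-YY) YY → s < t →
      |f' t - f' s| ≤ 2 * YY * M := by
    intro s t hs ht hst
    obtain ⟨d, hd, hd'⟩ := exists_hasDerivAt_eq_slope f' f'' hst
      (hc'.mono (Icc_subset_Icc hs.1 ht.2))
      (fun x hx => h2 x ⟨hs.1.trans_lt hx.1, hx.2.trans_le ht.2⟩)
    have hdM := hM d ⟨hs.1.trans_lt hd.1, hd.2.trans_le ht.2⟩
    have hst' : 0 < t - s := by linarith
    have : f' t - f' s = f'' d * (t - s) := by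
      rw [hd']
      field_simp
    rw [this, abs_mul, abs_of_pos hst', mul_comm]
    exact mul_le_mul (by linarith [hs.1, ht.2]) hdM (abs_nonneg _) (by linarith)
  intro x hx
  rcases lt_trichotomy x c with h | h | h
  · have := key x c hx (Ioo_subset_Icc_self hcI) h
    rw [hc0, zero_sub, abs_neg] at this
    exact this
  · rw [h, hc0, abs_zero]
    positivity
  · have := key c x (Ioo_subset_Icc_self hcI) hx h
    rw [hc0, sub_zero] at this
    exact this

end

end P229
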