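import Vale.Agent.P229.D2.Close1
import Vale.Agent.P229.D2.Land

/-!
# P229, block D2, module CLOSE2 (helper75)
-/

namespace P229

open Set Real
open scoped ContDiff

noncomputable section

open D1 (CJet)

/-- module CLOSE2: interpolation (`landau` in `p`, `zero_ends` in `y`). -/
theorem close2 (C1 C : ℝ) (k b : ℕ) (h1 : 1 ≤ C1) (hk : 10 ≤ k) :
    ∃ ρ C' : ℝ, 0 < ρ ∧ 0 ≤ C' ∧ ∀ (r mu : ℝ) (u : ℝ → ℝ → ℝ) (T : TJ), 0 < r → r < ρ →
      1 / C1 ≤ mu → mu ≤ C1 → GoodU ⟨r, k, b⟩ mu C1 u →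
      BaseOK (r ^ (10 * k)) mu 0 C (fun p => kap p * u p (-YY)) (fun p => kap p * u p YY) T →
      ∀ p : ℝ, |p| ≤ 14 / 10 → ∀ y ∈ IY,
        |u p y - T.W 0 p y| ≤ C' * (r ^ 2 * (r ^ (10 * k)) ^ 2) ∧
        |dx u p y - T.W 1 p y| ≤ C' * r ^ (10 * k) ∧
        |dx (dx u) p y - T.W 2 p y| ≤ C' * r ∧
        |dy u p y - T.V 0 p y| ≤ C' * (r ^ (10 * k)) ^ 2 ∧
        |dy (dx u) p y - T.V 1 p y| ≤ C' * r ^ (10 * k) := by
  obtain ⟨ρ1, C2, hρ1, hC2, H⟩ := close1 C1 C k b h1 hk
  set M : ℝ := 10 * C1 + |C| with hM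
  have hM0 : 0 ≤ M := by positivity
  set K4 : ℝ := 2 * YY * (C1 + C1 * |C|) with hK4
  have hY : YY = 41 / 20 := rfl
  have hK40 : 0 ≤ K4 := by rw [hK4, hY]; positivity
  set K2 : ℝ := 2 * C2 + M with hK2
  have hK20 : 0 ≤ K2 := by positivity
  refine ⟨min ρ1 (1 / 1000), C2 + K2 + (2 * K2 + M) + K4 + (2 * K4 + M), by positivity,
    by positivity, ?_⟩
  intro r mu u T hr0 hrρ hmu1 hmu2 hu hT
  have hr1 : r < ρ1 := hrρ.trans_le (min_le_left _ _)
  have hr2 : r < 1 / 1000 := hrρ.trans_le (min_le_right _ _)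
  have hr1' : r ≤ 1 := by linarith
  have HH := H r mu u T hr0 hr1 hmu1 hmu2 hu hT
  have hUF : UFacts (10 * C1) u := uFacts hu h1 hr0 hr1'
  set s : ℝ := r ^ (10 * k) with hs
  have hs0 : 0 < s := by positivity
  have hsr : s ≤ r := by
    calc s ≤ r ^ 1 := pow_le_pow_of_le_one hr0.le hr1' (by omega)
      _ = r := pow_one r
  have hs1 : s ≤ 1 := hsr.trans hr1'
  have hmu0 : 0 < mu := lt_of_lt_of_le (by positivity) hmu1
  have hCC : C ≤ |C| := le_abs_self C
  have hyy : ∀ y ∈ IY, |y| < 208 / 100 := by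
    intro y hy
    rw [abs_lt]
    constructor
    · linarith [hy.1, hY]
    · linarith [hy.2, hY]
  have hpp : ∀ p : ℝ, |p| ≤ 1409 / 1000 → |p| < 144 / 100 := fun p hp => by linarith
  have hIcc : ∀ {a p : ℝ}, p ∈ Icc (-a) a → |p| ≤ a := fun hp => abs_le.mpr ⟨hp.1, hp.2⟩
  -- step 2: first derivative in `p`
  have S2 : ∀ p : ℝ, |p| ≤ 1408 / 1000 → ∀ y ∈ IY, |dx u p y - T.W 1 p y| ≤ K2 * (r * s) := by
    intro p hp y hy
    have hrs : 0 < r * s := by positivity
    have hrs1 : r * s ≤ 1 / 1000 := by nlinarith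
    have L := landau (f := fun t => u t y - T.W 0 t y) (f' := fun t => dx u t y - T.W 1 t y)
      (f'' := fun t => dx (dx u) t y - T.W 2 t y) (a := -(1409 / 1000)) (b := 1409 / 1000)
      (h := r * s) (A := C2 * (r ^ 2 * s ^ 2)) (M := M) hrs
      (fun t ht => (hUF.hp t y (hpp t (hIcc ht)) (hyy y hy)).sub (hT.ok.cW.der 0 t y hy))
      (fun t ht => (hUF.hpp t y (hpp t (hIcc ht)) (hyy y hy)).sub (hT.ok.cW.der 1 t y hy))
      (fun t ht => HH t (hIcc ht) y hy)
      (fun t ht => by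
        have a1 := hUF.bpp t y (hpp t (hIcc ht)) (hyy y hy)
        have a2 := hT.bW 2 (by norm_num) t y hy
        calc |dx (dx u) t y - T.W 2 t y| ≤ |dx (dx u) t y| + |T.W 2 t y| := abs_sub _ _
          _ ≤ M := by rw [hM]; linarith)
      p ⟨by linarith [(abs_le.mp hp).1], by linarith [(abs_le.mp hp).2]⟩
    have e : 2 * (C2 * (r ^ 2 * s ^ 2)) / (r * s) + M * (r * s) = K2 * (r * s) := by
      rw [hK2]; field_simp
    rw [e] at L
    exact L
  -- step 3: second derivative in `p`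
  have S3 : ∀ p : ℝ, |p| ≤ 14 / 10 → ∀ y ∈ IY,
      |dx (dx u) p y - T.W 2 p y| ≤ (2 * K2 + M) * r := by
    intro p hp y hy
    have hq : ∀ t : ℝ, t ∈ Icc (-(1408 / 1000) : ℝ) (1408 / 1000) → |t| < 144 / 100 :=
      fun t ht => by have := hIcc ht; linarith
    have L := landau (f := fun t => dx u t y - T.W 1 t y)
      (f' := fun t => dx (dx u) t y - T.W 2 t y)
      (f'' := fun t => dx (dx (dx u)) t y - T.W 3 t y) (a := -(1408 / 1000)) (b := 1408 / 1000)
      (h := r) (A := K2 * (r * s)) (M := M) hr0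
      (fun t ht => (hUF.hpp t y (hq t ht) (hyy y hy)).sub (hT.ok.cW.der 1 t y hy))
      (fun t ht => (hUF.hppp t y (hq t ht) (hyy y hy)).sub (hT.ok.cW.der 2 t y hy))
      (fun t ht => S2 t (hIcc ht) y hy)
      (fun t ht => by
        have a1 := hUF.bppp t y (hq t ht) (hyy y hy)
        have a2 := hT.bW 3 (by norm_num) t y hy
        calc |dx (dx (dx u)) t y - T.W 3 t y| ≤ |dx (dx (dx u)) t y| + |T.W 3 t y| := abs_sub _ _
          _ ≤ M := by rw [hM]; linarith)
      p ⟨by linarith [(abs_le.mp hp).1], by linarith [(abs_le.mp hp).2]⟩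
    have e : 2 * (K2 * (r * s)) / r + M * r = 2 * K2 * s + M * r := by
      field_simp
    rw [e] at L
    refine L.trans ?_
    have := mul_le_mul_of_nonneg_left hsr (show 0 ≤ 2 * K2 by positivity)
    linarith
  -- step 4: first derivative in `y`
  have S4 : ∀ p : ℝ, |p| ≤ 1409 / 1000 → ∀ y ∈ IY, |dy u p y - T.V 0 p y| ≤ K4 * s ^ 2 := by
    intro p hp
    have hp' := hpp p hp
    have hp3 : |p| ≤ 3 := by linarith
    have hkap : kap p = 1 := kap_eq_one (by linarith)
    have hmem : ∀ {y : ℝ}, y ∈ Ioo (-YY) YY → Icc (-YY) YY ∈ nhds y := fun hy =>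
      Icc_mem_nhds hy.1 hy.2
    have Z := zero_ends (f := fun y => u p y - T.W 0 p y) (f' := fun y => dy u p y - T.V 0 p y)
      (f'' := fun y => dy (dy u) p y - T.X 0 p y) (M := (C1 + C1 * |C|) * s ^ 2)
      (fun y hy => ((hUF.hy p y hp' (hyy y hy)).continuousAt.continuousWithinAt).sub
        (hT.ok.hV 0 p y hy).continuousWithinAt)
      (fun y hy => (hUF.hy p y hp' (hyy y (Ioo_subset_Icc_self hy))).sub
        ((hT.ok.hV 0 p y (Ioo_subset_Icc_self hy)).hasDerivAt (hmem hy)))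
      (fun y hy => ((hUF.hyy p y hp' (hyy y hy)).continuousAt.continuousWithinAt).sub
        (hT.ok.hX 0 p y hy).continuousWithinAt)
      (fun y hy => (hUF.hyy p y hp' (hyy y (Ioo_subset_Icc_self hy))).sub
        ((hT.ok.hX 0 p y (Ioo_subset_Icc_self hy)).hasDerivAt (hmem hy)))
      (by
        have := hT.low p hp3
        simp only [this, hkap, one_mul, sub_self])
      (by
        have := hT.high p hp3
        simp only [this, hkap, one_mul, sub_self])
      (fun y hy => by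
        have hyI := Ioo_subset_Icc_self hy
        have a1 := hu.uyy p y hp' (hyy y hyI)
        have e1 : (Par.eps ⟨r, k, b⟩ : ℝ) = s ^ 2 := by
          unfold Par.eps
          rw [hs, ← pow_mul]
          congr 1
          ring
        rw [e1] at a1
        have a2 := hT.eq 0 p hp3 y hyI
        have a3 := hT.bW 2 (by norm_num) p y hyI
        have a4 : |T.X 0 p y| ≤ C1 * |C| * s ^ 2 := by
          rw [a2]
          have hchi0 := chi_nonneg y
          have hchi1 := chi_le_one y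
          have e2 : |-s ^ 2 * mu * chi y * T.W (0 + 2) p y|
              = s ^ 2 * mu * chi y * |T.W 2 p y| := by
            rw [abs_mul, abs_mul, abs_mul, abs_neg, abs_of_nonneg (sq_nonneg s),
              abs_of_nonneg hmu0.le, abs_of_nonneg hchi0]
          rw [e2]
          have b1 : s ^ 2 * mu ≤ s ^ 2 * C1 := mul_le_mul_of_nonneg_left hmu2 (sq_nonneg s)
          have b2 : s ^ 2 * mu * chi y ≤ s ^ 2 * C1 * 1 :=
            mul_le_mul b1 hchi1 hchi0 (by positivity)
          have b3 : s ^ 2 * mu * chi y * |T.W 2 p y| ≤ s ^ 2 * C1 * 1 * |C| :=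
            mul_le_mul b2 (a3.trans hCC) (abs_nonneg _) (by positivity)
          linarith
        calc |dy (dy u) p y - T.X 0 p y| ≤ |dy (dy u) p y| + |T.X 0 p y| := abs_sub _ _
          _ ≤ C1 * s ^ 2 + C1 * |C| * s ^ 2 := by linarith
          _ = (C1 + C1 * |C|) * s ^ 2 := by ring)
    intro y hy
    have := Z y hy
    rw [hK4]
    calc |dy u p y - T.V 0 p y| ≤ 2 * YY * ((C1 + C1 * |C|) * s ^ 2) := this
      _ = 2 * YY * (C1 + C1 * |C|) * s ^ 2 := by ring
  -- step 5: mixed derivative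
  have S5 : ∀ p : ℝ, |p| ≤ 14 / 10 → ∀ y ∈ IY,
      |dy (dx u) p y - T.V 1 p y| ≤ (2 * K4 + M) * s := by
    intro p hp y hy
    have hs3 : s ≤ 1 / 1000 := by linarith
    have L := landau (f := fun t => dy u t y - T.V 0 t y)
      (f' := fun t => dy (dx u) t y - T.V 1 t y)
      (f'' := fun t => dy (dx (dx u)) t y - T.V 2 t y) (a := -(1409 / 1000)) (b := 1409 / 1000)
      (h := s) (A := K4 * s ^ 2) (M := M) hs0
      (fun t ht => (hUF.hyp t y (hpp t (hIcc ht)) (hyy y hy)).sub (hT.ok.cV.der 0 t y hy))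
      (fun t ht => (hUF.hypp t y (hpp t (hIcc ht)) (hyy y hy)).sub (hT.ok.cV.der 1 t y hy))
      (fun t ht => S4 t (hIcc ht) y hy)
      (fun t ht => by
        have a1 := hUF.bppy t y (hpp t (hIcc ht)) (hyy y hy)
        have a2 := hT.bV 2 (by norm_num) t y hy
        calc |dy (dx (dx u)) t y - T.V 2 t y| ≤ |dy (dx (dx u)) t y| + |T.V 2 t y| := abs_sub _ _
          _ ≤ M := by rw [hM]; linarith)
      p ⟨by linarith [(abs_le.mp hp).1], by linarith [(abs_le.mp hp).2]⟩
    have e : 2 * (K4 * s ^ 2) / s + M * s = (2 * K4 + M) * s := by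
      field_simp
    rw [e] at L
    exact L
  intro p hp y hy
  have q1 := HH p (by linarith) y hy
  have q2 := S2 p (by linarith) y hy
  have q3 := S3 p hp y hy
  have q4 := S4 p (by linarith) y hy
  have q5 := S5 p hp y hy
  refine ⟨q1.trans ?_, q2.trans ?_, q3.trans ?_, q4.trans ?_, q5.trans ?_⟩
  · apply mul_le_mul_of_nonneg_right _ (by positivity)
    linarith
  · have : K2 * (r * s) ≤ K2 * s := by
      apply mul_le_mul_of_nonneg_left _ hK20
      nlinarith
    refine this.trans (mul_le_mul_of_nonneg_right ?_ hs0.le)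
    linarith
  · apply mul_le_mul_of_nonneg_right _ hr0.le
    linarith
  · apply mul_le_mul_of_nonneg_right _ (by positivity)
    linarith
  · apply mul_le_mul_of_nonneg_right _ hs0.le
    linarith

end

end P229
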