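import Vale.Agent.P229.D2.DataDefs
import Vale.Agent.P229.D2.Kap
import Vale.Agent.P229.D2.UFacts

/-!
# P229, block D2, module DATA (helper75)
-/

namespace P229

open Set Real
open scoped ContDiff

noncomputable section

open D1 (CJet)

private theorem dat_kap_bdd1 (n : ℕ) : ∃ K : ℝ, 1 ≤ K ∧ ∀ p, |iteratedDeriv n kap p| ≤ K := by
  refine bdd_of_zero_outside (R := 2) ?_ ?_
  · exact kap_contDiff.continuous_iteratedDeriv n (by exact_mod_cast le_top)
  · intro y hy
    exact iteratedDeriv_zero_outside (R := 1415 / 1000) (fun z hz => kap_eq_zero hz) n y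
      (by linarith)

private theorem dat_kap_bdd (N : ℕ) :
    ∃ K : ℝ, 0 ≤ K ∧ ∀ n ≤ N, ∀ p, |iteratedDeriv n kap p| ≤ K := by
  choose K hK1 hK using dat_kap_bdd1
  refine ⟨∑ i ∈ Finset.range (N + 1), K i,
    Finset.sum_nonneg fun i _ => zero_le_one.trans (hK1 i), fun n hn p => ?_⟩
  refine (hK n p).trans ?_
  exact Finset.single_le_sum (f := K) (fun i _ => zero_le_one.trans (hK1 i))
    (Finset.mem_range.2 (Nat.lt_succ_of_le hn))

/-- Leibniz bound -/
private theorem dat_leib {g : ℝ → ℝ} {n : ℕ} {p K t B : ℝ} (hg : ContDiffAt ℝ n g p)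
    (hK0 : 0 ≤ K) (hK : ∀ i ≤ n, |iteratedDeriv i kap p| ≤ K) (ht : 0 ≤ t)
    (hB : ∀ j ≤ n, |iteratedDeriv j g p| * t ≤ B) :
    |iteratedDeriv n (fun p => kap p * g p) p| * t ≤ 2 ^ n * (K * B) := by
  have hk : ContDiffAt ℝ n kap p := (kap_contDiff.of_le (by exact_mod_cast le_top)).contDiffAt
  rw [iteratedDeriv_fun_mul hk hg]
  have h1 : ∀ i ∈ Finset.range (n + 1),
      |(n.choose i : ℝ) * iteratedDeriv i kap p * iteratedDeriv (n - i) g p| * t
        ≤ (n.choose i : ℝ) * (K * B) := by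
    intro i hi
    have hi' : i ≤ n := Nat.lt_succ_iff.1 (Finset.mem_range.1 hi)
    rw [abs_mul, abs_mul, abs_of_nonneg (Nat.cast_nonneg (n.choose i))]
    calc (n.choose i : ℝ) * |iteratedDeriv i kap p| * |iteratedDeriv (n - i) g p| * t
        = (n.choose i : ℝ) * (|iteratedDeriv i kap p| * (|iteratedDeriv (n - i) g p| * t)) := by
          ring
      _ ≤ (n.choose i : ℝ) * (K * B) := by
          refine mul_le_mul_of_nonneg_left ?_ (Nat.cast_nonneg _)
          exact mul_le_mul (hK i hi') (hB (n - i) (Nat.sub_le n i)) (by positivity) hK0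
  calc |∑ i ∈ Finset.range (n + 1),
          (n.choose i : ℝ) * iteratedDeriv i kap p * iteratedDeriv (n - i) g p| * t
      ≤ (∑ i ∈ Finset.range (n + 1),
          |(n.choose i : ℝ) * iteratedDeriv i kap p * iteratedDeriv (n - i) g p|) * t :=
        mul_le_mul_of_nonneg_right (Finset.abs_sum_le_sum_abs _ _) ht
    _ = ∑ i ∈ Finset.range (n + 1),
          |(n.choose i : ℝ) * iteratedDeriv i kap p * iteratedDeriv (n - i) g p| * t :=
        Finset.sum_mul _ _ _
    _ ≤ ∑ i ∈ Finset.range (n + 1), (n.choose i : ℝ) * (K * B) := Finset.sum_le_sum h1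
    _ = 2 ^ n * (K * B) := by
        rw [← Finset.sum_mul]
        congr 1
        exact_mod_cast Nat.sum_range_choose n

private theorem dat_zero (g : ℝ → ℝ) (n : ℕ) {p : ℝ} (hp : 1415 / 1000 < |p|) :
    iteratedDeriv n (fun p => kap p * g p) p = 0 :=
  iteratedDeriv_zero_outside (R := 1415 / 1000)
    (fun t ht => by simp only [kap_eq_zero ht, zero_mul]) n p hp

/-- the product `kap * g` is smooth -/
private theorem dat_smooth {g : ℝ → ℝ} (hg : ContDiffOn ℝ ∞ g (Ioo (-(144 / 100)) (144 / 100))) :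
    ContDiff ℝ ∞ (fun p => kap p * g p) := by
  rw [contDiff_iff_contDiffAt]
  intro p
  by_cases hp : |p| < 144 / 100
  · have h1 : Ioo (-(144 / 100) : ℝ) (144 / 100) ∈ nhds p :=
      Ioo_mem_nhds (abs_lt.1 hp).1 (abs_lt.1 hp).2
    exact kap_contDiff.contDiffAt.mul (hg.contDiffAt h1)
  · have hev : (fun p => kap p * g p) =ᶠ[nhds p] fun _ => (0 : ℝ) := by
      have hc : Continuous (fun t : ℝ => |t|) := continuous_abs
      have h2 : 1415 / 1000 < |p| := by linarith [not_lt.1 hp]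
      filter_upwards [hc.continuousAt.eventually_const_lt h2] with t ht
      simp only [kap_eq_zero ht.le, zero_mul]
    exact contDiffAt_const.congr_of_eventuallyEq hev

/-- the general statement, for one function `g` -/
private theorem dat_main (N : ℕ) (c1 c2 : ℝ) (hc1 : 0 ≤ c1) (hc2 : 0 ≤ c2) :
    ∃ C : ℝ, 0 ≤ C ∧ ∀ (s : ℝ) (g : ℝ → ℝ), 0 < s → s ≤ 1 →
      ContDiffOn ℝ ∞ g (Ioo (-(144 / 100)) (144 / 100)) →
      (∀ n ≤ 3, ∀ p : ℝ, |p| ≤ 143 / 100 → |iteratedDeriv n g p| ≤ c1) →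
      (∀ n ≤ N, ∀ p : ℝ, |p| ≤ 143 / 100 → |iteratedDeriv (n + 2) g p| * s ^ n ≤ c2) →
      DataOK s N C (fun p => kap p * g p) := by
  obtain ⟨K, hK0, hK⟩ := dat_kap_bdd (N + 3)
  refine ⟨2 ^ (N + 3) * (K * (c1 + c2)), by positivity, fun s g hs hs1 hg h3 hN => ?_⟩
  have hgat : ∀ (n : ℕ) (p : ℝ), |p| ≤ 1415 / 1000 → ContDiffAt ℝ n g p := by
    intro n p hp
    have hp' := abs_le.1 hp
    have h1 : Ioo (-(144 / 100) : ℝ) (144 / 100) ∈ nhds p :=
      Ioo_mem_nhds (by linarith [hp'.1]) (by linarith [hp'.2])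
    exact (hg.contDiffAt h1).of_le (by exact_mod_cast le_top)
  have hpow : ∀ n ≤ N + 3, (2 : ℝ) ^ n * (K * (c1 + c2)) ≤ 2 ^ (N + 3) * (K * (c1 + c2)) :=
    fun n hn => mul_le_mul_of_nonneg_right (pow_le_pow_right₀ (by norm_num) hn) (by positivity)
  refine ⟨dat_smooth hg, fun p hp => by simp only [kap_eq_zero hp, zero_mul], ?_, ?_⟩
  · intro n hn p
    by_cases hp : 1415 / 1000 < |p|
    · rw [dat_zero g n hp, abs_zero]; positivity
    · have hp' := not_lt.1 hp
      have h := dat_leib (t := 1) (B := c1 + c2) (hgat n p hp') hK0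
        (fun i hi => hK i (by omega) p) zero_le_one
        (fun j hj => by
          rw [mul_one]
          exact (h3 j (by omega) p (by linarith)).trans (by linarith))
      rw [mul_one] at h
      exact h.trans (hpow n (by omega))
  · intro n hn p
    by_cases hp : 1415 / 1000 < |p|
    · rw [dat_zero g (n + 2) hp, abs_zero, zero_mul]; positivity
    · have hp' := not_lt.1 hp
      have hsn : s ^ n ≤ 1 := pow_le_one₀ hs.le hs1
      have h := dat_leib (t := s ^ n) (B := c1 + c2) (hgat (n + 2) p hp') hK0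
        (fun i hi => hK i (by omega) p) (by positivity)
        (fun j hj => by
          rcases Nat.lt_or_ge j 2 with hj2 | hj2
          · calc |iteratedDeriv j g p| * s ^ n ≤ |iteratedDeriv j g p| * 1 :=
                  mul_le_mul_of_nonneg_left hsn (abs_nonneg _)
              _ ≤ c1 + c2 := by
                  rw [mul_one]
                  exact (h3 j (by omega) p (by linarith)).trans (by linarith)
          · obtain ⟨m, rfl⟩ : ∃ m, j = m + 2 := ⟨j - 2, by omega⟩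
            have hm : s ^ n ≤ s ^ m := pow_le_pow_of_le_one hs.le hs1 (by omega)
            calc |iteratedDeriv (m + 2) g p| * s ^ n ≤ |iteratedDeriv (m + 2) g p| * s ^ m :=
                  mul_le_mul_of_nonneg_left hm (abs_nonneg _)
              _ ≤ c1 + c2 := (hN m (by omega) p (by linarith)).trans (by linarith))
      exact h.trans (hpow (n + 2) (by omega))

/-- `BlockC` for all `n ≤ N` -/
private theorem dat_blockC (hC : BlockC) (C1 : ℝ) (k b N : ℕ) (h1 : 1 ≤ C1) (hk : 10 ≤ k)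
    (hb : 20 * k + 10 ≤ b) : ∃ C r0 : ℝ, 1 ≤ C ∧ 0 < r0 ∧ ∀ n ≤ N,
    ∀ r : ℝ, 0 < r → r < r0 → ∀ (mu : ℝ) (u : ℝ → ℝ → ℝ), 1 / C1 ≤ mu → mu ≤ C1 →
      GoodU ⟨r, k, b⟩ mu C1 u → ∀ p : ℝ, |p| ≤ 143 / 100 →
        |iteratedDeriv n (fun t => dx (dx u) t YY) p| * (r ^ (10 * k)) ^ n ≤ C ∧
        |iteratedDeriv n (fun t => dx (dx u) t (-YY)) p| * (r ^ (10 * k)) ^ n ≤ C := by
  induction N with
  | zero =>
    obtain ⟨C, r0, hC1, hr0, H⟩ := hC C1 k b 0 h1 hk hb
    refine ⟨C, r0, hC1, hr0, fun n hn => ?_⟩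
    obtain rfl : n = 0 := by omega
    exact H
  | succ N ih =>
    obtain ⟨C, r0, hC1, hr0, H⟩ := ih
    obtain ⟨C', r0', hC1', hr0', H'⟩ := hC C1 k b (N + 1) h1 hk hb
    refine ⟨C + C', min r0 r0', by linarith, lt_min hr0 hr0',
      fun n hn r hr hr' mu u hm1 hm2 hu p hp => ?_⟩
    rcases Nat.lt_or_ge N n with h | h
    · obtain rfl : n = N + 1 := by omega
      have := H' r hr (hr'.trans_le (min_le_right _ _)) mu u hm1 hm2 hu p hp
      exact ⟨this.1.trans (by linarith), this.2.trans (by linarith)⟩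
    · have := H n h r hr (hr'.trans_le (min_le_left _ _)) mu u hm1 hm2 hu p hp
      exact ⟨this.1.trans (by linarith), this.2.trans (by linarith)⟩

private theorem dat_iter (u : ℝ → ℝ → ℝ) (y : ℝ) (n : ℕ) :
    iteratedDeriv (n + 2) (fun t => u t y) = iteratedDeriv n (fun t => dx (dx u) t y) := by
  rw [iteratedDeriv_succ', iteratedDeriv_succ']
  rfl

private theorem dat_low {C : ℝ} {u : ℝ → ℝ → ℝ} (hu : UFacts C u) {y : ℝ} (hy : |y| < 208 / 100) :
    ∀ n ≤ 3, ∀ p : ℝ, |p| ≤ 143 / 100 → |iteratedDeriv n (fun t => u t y) p| ≤ C := by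
  intro n hn p hp
  have hp' : |p| < 144 / 100 := by linarith
  have hcases : n = 0 ∨ n = 1 ∨ n = 2 ∨ n = 3 := by omega
  rcases hcases with h | h | h | h
  · rw [h, iteratedDeriv_zero]; exact hu.bu p y hp' hy
  · rw [h, iteratedDeriv_one]; exact hu.bp p y hp' hy
  · rw [h, dat_iter u y 0, iteratedDeriv_zero]; exact hu.bpp p y hp' hy
  · rw [h, dat_iter u y 1, iteratedDeriv_one]; exact hu.bppp p y hp' hy

private theorem dat_cd {P : Par} {mu C1 : ℝ} {u : ℝ → ℝ → ℝ} (hu : GoodU P mu C1 u) {y : ℝ}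
    (hy : |y| < 208 / 100) : ContDiffOn ℝ ∞ (fun t => u t y) (Ioo (-(144 / 100)) (144 / 100)) := by
  have h1 : ContDiffOn ℝ ∞ (fun t : ℝ => ((t, y) : ℝ × ℝ)) (Ioo (-(144 / 100)) (144 / 100)) := by
    fun_prop
  exact hu.smooth.comp h1 (fun t ht => ⟨ht, (abs_lt.1 hy).1, (abs_lt.1 hy).2⟩)

/-- module DATA (Leibniz with `kap`; `u` bounded by `u00` and the gradient bounds; `uppp`;
`BlockC` for `n ≤ N`: take the minimum of the `r0`'s) -/
theorem data_ok (hC : BlockC) (C1 : ℝ) (k b N : ℕ) (h1 : 1 ≤ C1) (hk : 10 ≤ k)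
    (hb : 20 * k + 10 ≤ b) : ∃ ρ C : ℝ, 0 < ρ ∧ 0 ≤ C ∧
    ∀ (r mu : ℝ) (u : ℝ → ℝ → ℝ), 0 < r → r < ρ → 1 / C1 ≤ mu → mu ≤ C1 →
      GoodU ⟨r, k, b⟩ mu C1 u →
      DataOK (r ^ (10 * k)) N C (fun p => kap p * u p (-YY)) ∧
      DataOK (r ^ (10 * k)) N C (fun p => kap p * u p YY) := by
  obtain ⟨c2, r0, hc2, hr0, H⟩ := dat_blockC hC C1 k b N h1 hk hb
  obtain ⟨C, hC0, HC⟩ := dat_main N (10 * C1) c2 (by linarith) (by linarith)
  refine ⟨min r0 1, C, lt_min hr0 one_pos, hC0, fun r mu u hr hr' hm1 hm2 hu => ?_⟩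
  have hrr0 : r < r0 := hr'.trans_le (min_le_left _ _)
  have hr1 : r ≤ 1 := (hr'.trans_le (min_le_right _ _)).le
  have hs : 0 < r ^ (10 * k) := by positivity
  have hs1 : r ^ (10 * k) ≤ 1 := pow_le_one₀ hr.le hr1
  have hUF : UFacts (10 * C1) u := uFacts hu h1 hr hr1
  have hY : |YY| < 208 / 100 := by
    unfold YY; rw [abs_of_pos (by norm_num)]; norm_num
  have hY' : |-YY| < 208 / 100 := by rw [abs_neg]; exact hY
  constructor
  · refine HC _ (fun p => u p (-YY)) hs hs1 (dat_cd hu hY') (dat_low hUF hY')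
      (fun n hn p hp => ?_)
    rw [dat_iter]
    exact (H n hn r hr hrr0 mu u hm1 hm2 hu p hp).2
  · refine HC _ (fun p => u p YY) hs hs1 (dat_cd hu hY) (dat_low hUF hY)
      (fun n hn p hp => ?_)
    rw [dat_iter]
    exact (H n hn r hr hrr0 mu u hm1 hm2 hu p hp).1

end

end P229
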