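import Vale.Agent.P229.D2.StepDefs

/-!
# P229, block D2: the lateral data and the initial approximation, definitions (helper75)
-/

namespace P229

open Set Real
open scoped ContDiff

noncomputable section

open D1 (CJet)

/-- slow lateral data -/
structure DataOK (s : ℝ) (N : ℕ) (C : ℝ) (F : ℝ → ℝ) : Prop where
  sm : ContDiff ℝ ∞ F
  supp : ∀ p, 1415 / 1000 ≤ |p| → F p = 0
  b : ∀ n ≤ 3, ∀ p, |iteratedDeriv n F p| ≤ C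
  sl : ∀ n ≤ N, ∀ p, |iteratedDeriv (n + 2) F p| * s ^ n ≤ C

/-- the initial approximation -/
structure BaseOK (s mu : ℝ) (N : ℕ) (C : ℝ) (Fm Fp : ℝ → ℝ) (T : TJ) : Prop where
  ok : T.OK
  low : ∀ p, |p| ≤ 3 → T.W 0 p (-YY) = Fm p
  high : ∀ p, |p| ≤ 3 → T.W 0 p YY = Fp p
  eq : ∀ n p, |p| ≤ 3 → ∀ y ∈ IY, T.X n p y = - s ^ 2 * mu * chi y * T.W (n + 2) p y
  bW : ∀ n ≤ 3, ∀ p, ∀ y ∈ IY, |T.W n p y| ≤ C
  bV : ∀ n ≤ 2, ∀ p, ∀ y ∈ IY, |T.V n p y| ≤ C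
  b1 : SlB s N C (T.W 1)
  b2 : SlB s N C (T.V 0)
  b3 : SlB s N C (T.W 2)
  b4 : SlB s N C (T.V 1)

end

end P229
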