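import Vale.Agent.P229.D2.Slow

/-!
# P229, block D2: families of slow functions, uniformly for small `r` (helper75)

`ι` is the type of all configurations; `r i` the size.  `UDf r s δ N F G`: for small `r i`, `F i`,
`G i` are slow with one constant and `G i - F i` is slow with amplitude `O(δ i)`.
-/

namespace P229

open Set Real
open scoped ContDiff

noncomputable section

variable {ι : Type}

/-- uniformly slow families -/
def USl (r s : ι → ℝ) (N : ℕ) (F : ι → ℝ → ℝ → ℝ) : Prop :=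
  ∃ ρ C : ℝ, 0 < ρ ∧ 0 ≤ C ∧ ∀ i, r i < ρ → PS (F i) ∧ SlB (s i) N C (F i)

/-- uniformly slow families whose difference has amplitude `δ` -/
def UDf (r s δ : ι → ℝ) (N : ℕ) (F G : ι → ℝ → ℝ → ℝ) : Prop :=
  ∃ ρ C : ℝ, 0 < ρ ∧ 0 ≤ C ∧ ∀ i, r i < ρ → PS (F i) ∧ PS (G i) ∧ SlB (s i) N C (F i) ∧
    SlB (s i) N C (G i) ∧ SlB (s i) N (C * δ i) (fun p y => G i p y - F i p y)

end

end P229
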