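import Vale.Agent.P229.D2.Fam
import Vale.Agent.P229.D2.SlowAdd

/-!
# P229, block D2, module FAM1 (helper75)
-/

namespace P229

open Set Real
open scoped ContDiff

noncomputable section

variable {ι : Type} {r s δ : ι → ℝ} {N : ℕ} {F G F' G' : ι → ℝ → ℝ → ℝ}

/-- module FAM1 -/
theorem UDf.left (h : UDf r s δ N F G) : USl r s N F := by
  obtain ⟨ρ, C, hρ, hC, h⟩ := h
  exact ⟨ρ, C, hρ, hC, fun i hi => ⟨(h i hi).1, (h i hi).2.2.1⟩⟩

/-- module FAM1 -/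
theorem UDf.right (h : UDf r s δ N F G) : USl r s N G := by
  obtain ⟨ρ, C, hρ, hC, h⟩ := h
  exact ⟨ρ, C, hρ, hC, fun i hi => ⟨(h i hi).2.1, (h i hi).2.2.2.1⟩⟩

/-- module FAM1 -/
theorem USl.refl (hs : ∀ i, 0 ≤ s i) (hδ : ∀ i, 0 ≤ δ i) (h : USl r s N F) :
    UDf r s δ N F F := by
  obtain ⟨ρ, C, hρ, hC, h⟩ := h
  refine ⟨ρ, C, hρ, hC, fun i hi => ?_⟩
  obtain ⟨h1, h2⟩ := h i hi
  refine ⟨h1, h1, h2, h2, ?_⟩
  intro n hn p y hy
  rw [dpn_sub h1 h1 n hy, sub_self, abs_zero, zero_mul]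
  exact mul_nonneg hC (hδ i)

/-- module FAM1 -/
theorem UDf.add (hs : ∀ i, 0 ≤ s i) (h1 : UDf r s δ N F G) (h2 : UDf r s δ N F' G') :
    UDf r s δ N (fun i p y => F i p y + F' i p y) (fun i p y => G i p y + G' i p y) := by
  obtain ⟨ρ, C, hρ, hC, h1⟩ := h1
  obtain ⟨ρ', C', hρ', hC', h2⟩ := h2
  refine ⟨min ρ ρ', C + C', lt_min hρ hρ', add_nonneg hC hC', fun i hi => ?_⟩
  obtain ⟨a1, a2, a3, a4, a5⟩ := h1 i (lt_of_lt_of_le hi (min_le_left _ _))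
  obtain ⟨b1, b2, b3, b4, b5⟩ := h2 i (lt_of_lt_of_le hi (min_le_right _ _))
  refine ⟨a1.add b1, a2.add b2, SlB.add a1 b1 (hs i) a3 b3, SlB.add a2 b2 (hs i) a4 b4, ?_⟩
  have h3 := SlB.add (a2.sub a1) (b2.sub b1) (hs i) a5 b5
  have h4 : (fun p y => G i p y + G' i p y - (F i p y + F' i p y))
      = fun p y => (G i p y - F i p y) + (G' i p y - F' i p y) := by
    funext p y
    ring
  rw [h4, add_mul]
  exact h3

/-- module FAM1 -/
theorem UDf.sub (hs : ∀ i, 0 ≤ s i) (h1 : UDf r s δ N F G) (h2 : UDf r s δ N F' G') :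
    UDf r s δ N (fun i p y => F i p y - F' i p y) (fun i p y => G i p y - G' i p y) := by
  obtain ⟨ρ, C, hρ, hC, h1⟩ := h1
  obtain ⟨ρ', C', hρ', hC', h2⟩ := h2
  refine ⟨min ρ ρ', C + C', lt_min hρ hρ', add_nonneg hC hC', fun i hi => ?_⟩
  obtain ⟨a1, a2, a3, a4, a5⟩ := h1 i (lt_of_lt_of_le hi (min_le_left _ _))
  obtain ⟨b1, b2, b3, b4, b5⟩ := h2 i (lt_of_lt_of_le hi (min_le_right _ _))
  refine ⟨a1.sub b1, a2.sub b2, SlB.sub a1 b1 (hs i) a3 b3, SlB.sub a2 b2 (hs i) a4 b4, ?_⟩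
  have h3 := SlB.sub (a2.sub a1) (b2.sub b1) (hs i) a5 b5
  have h4 : (fun p y => G i p y - G' i p y - (F i p y - F' i p y))
      = fun p y => (G i p y - F i p y) - (G' i p y - F' i p y) := by
    funext p y
    ring
  rw [h4, add_mul]
  exact h3

/-- module FAM1: bounded constants -/
theorem UDf.const (hs : ∀ i, 0 ≤ s i) (hδ : ∀ i, 0 ≤ δ i) {a : ι → ℝ} {A : ℝ}
    (ha : ∀ i, |a i| ≤ A) : UDf r s δ N (fun i _ _ => a i) (fun i _ _ => a i) := by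
  refine USl.refl hs hδ ⟨1, |A|, one_pos, abs_nonneg A, fun i _ => ⟨?_, ?_⟩⟩
  · exact PS.yfun (g := fun _ => a i) continuousOn_const
  · exact SlB.yfun (g := fun _ => a i) (fun y _ => (ha i).trans (le_abs_self A)) (abs_nonneg A)

/-- module FAM1: functions of `y` -/
theorem UDf.yfun (hs : ∀ i, 0 ≤ s i) (hδ : ∀ i, 0 ≤ δ i) {g : ℝ → ℝ}
    (hg : ContinuousOn g IY) : UDf r s δ N (fun _ _ y => g y) (fun _ _ y => g y) := by
  obtain ⟨C, hC⟩ := (isCompact_Icc (a := -YY) (b := YY)).exists_bound_of_continuousOn hg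
  refine USl.refl hs hδ ⟨1, |C|, one_pos, abs_nonneg C, fun i _ => ⟨PS.yfun hg, ?_⟩⟩
  refine SlB.yfun (fun y hy => ?_) (abs_nonneg C)
  have h1 := hC y hy
  rw [Real.norm_eq_abs] at h1
  exact h1.trans (le_abs_self C)

private theorem fam1_bound {g : ℝ → ℝ} (hg : ContDiff ℝ ∞ g) (hc : HasCompactSupport g) (N : ℕ) :
    ∃ C : ℝ, 0 ≤ C ∧ ∀ n ≤ N, ∀ p, |iteratedDeriv n g p| ≤ C := by
  have hcs : ∀ n : ℕ, HasCompactSupport (iteratedDeriv n g) := by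
    intro n
    induction n with
    | zero => rw [iteratedDeriv_zero]; exact hc
    | succ n ih => rw [iteratedDeriv_succ]; exact ih.deriv
  have hcont : ∀ n : ℕ, Continuous (iteratedDeriv n g) := fun n =>
    hg.continuous_iteratedDeriv n (by exact_mod_cast le_top)
  have hb : ∀ n : ℕ, ∃ C : ℝ, ∀ p, ‖iteratedDeriv n g p‖ ≤ C := fun n =>
    (hcs n).exists_bound_of_continuous (hcont n)
  choose C hC using hb
  refine ⟨∑ n ∈ Finset.range (N + 1), |C n|, Finset.sum_nonneg fun n _ => abs_nonneg _, ?_⟩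
  intro n hn p
  have h1 := hC n p
  rw [Real.norm_eq_abs] at h1
  have h2 : |C n| ≤ ∑ n ∈ Finset.range (N + 1), |C n| :=
    Finset.single_le_sum (f := fun n => |C n|) (fun n _ => abs_nonneg _)
      (Finset.mem_range.mpr (by omega))
  exact h1.trans ((le_abs_self _).trans h2)

/-- module FAM1: functions of `p` with compact support -/
theorem UDf.pfun (hs : ∀ i, 0 ≤ s i) (hs1 : ∀ i, s i ≤ 1) (hδ : ∀ i, 0 ≤ δ i) {g : ℝ → ℝ}
    (hg : ContDiff ℝ ∞ g) (hc : HasCompactSupport g) :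
    UDf r s δ N (fun _ p _ => g p) (fun _ p _ => g p) := by
  obtain ⟨C, hC0, hC⟩ := fam1_bound hg hc N
  exact USl.refl hs hδ ⟨1, C, one_pos, hC0, fun i _ =>
    ⟨PS.pfun hg, SlB.pfun (hs i) (hs1 i) hC⟩⟩

end

end P229
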