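import Vale.Agent.P229.D2.SlowAdd

/-!
# P229, block D2, module SLOW_MUL (helper75)
-/

namespace P229

open Set Real
open scoped ContDiff

noncomputable section

/-- module SLOW_MUL (Leibniz: `iteratedDeriv_mul`) -/
theorem dpn_mul {F G : ℝ → ℝ → ℝ} (hF : PS F) (hG : PS G) (n : ℕ) {p y : ℝ} (hy : y ∈ IY) :
    dpn n (fun p y => F p y * G p y) p y =
      ∑ i ∈ Finset.range (n + 1), (n.choose i : ℝ) * dpn i F p y * dpn (n - i) G p y := by
  unfold dpn
  have h1 : ContDiffAt ℝ n (fun t => F t y) p :=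
    ((hF.cd y hy).of_le (by exact_mod_cast le_top)).contDiffAt
  have h2 : ContDiffAt ℝ n (fun t => G t y) p :=
    ((hG.cd y hy).of_le (by exact_mod_cast le_top)).contDiffAt
  exact iteratedDeriv_fun_mul h1 h2

/-- module SLOW_MUL -/
theorem PS.mul {F G : ℝ → ℝ → ℝ} (hF : PS F) (hG : PS G) : PS (fun p y => F p y * G p y) := by
  refine ⟨fun y hy => (hF.cd y hy).mul (hG.cd y hy), fun n => ?_⟩
  have h : ContinuousOn (fun z : ℝ × ℝ => ∑ i ∈ Finset.range (n + 1),
      (n.choose i : ℝ) * dpn i F z.1 z.2 * dpn (n - i) G z.1 z.2) (univ ×ˢ IY) :=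
    continuousOn_finsetSum _ fun i _ =>
      (continuousOn_const.mul (hF.cont i)).mul (hG.cont (n - i))
  refine h.congr fun z hz => ?_
  exact dpn_mul hF hG n hz.2

/-- module SLOW_MUL (sum of the binomial coefficients) -/
theorem SlB.mul {s : ℝ} {N : ℕ} {C D : ℝ} {F G : ℝ → ℝ → ℝ} (hF : PS F) (hG : PS G)
    (hs : 0 ≤ s) (hC : 0 ≤ C) (hD : 0 ≤ D) (h1 : SlB s N C F) (h2 : SlB s N D G) :
    SlB s N (2 ^ N * (C * D)) (fun p y => F p y * G p y) := by
  intro n hn p y hy
  rw [dpn_mul hF hG n hy]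
  calc |∑ i ∈ Finset.range (n + 1), (n.choose i : ℝ) * dpn i F p y * dpn (n - i) G p y| * s ^ n
      ≤ (∑ i ∈ Finset.range (n + 1), |(n.choose i : ℝ) * dpn i F p y * dpn (n - i) G p y|)
          * s ^ n := by
        gcongr
        exact Finset.abs_sum_le_sum_abs _ _
    _ = ∑ i ∈ Finset.range (n + 1), (n.choose i : ℝ) *
          ((|dpn i F p y| * s ^ i) * (|dpn (n - i) G p y| * s ^ (n - i))) := by
        rw [Finset.sum_mul]
        refine Finset.sum_congr rfl fun i hi => ?_
        have hi' : i ≤ n := Nat.lt_succ_iff.mp (Finset.mem_range.mp hi)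
        have hsp : s ^ n = s ^ i * s ^ (n - i) := by rw [← pow_add]; congr 1; omega
        rw [abs_mul, abs_mul, Nat.abs_cast, hsp]
        ring
    _ ≤ ∑ i ∈ Finset.range (n + 1), (n.choose i : ℝ) * (C * D) := by
        refine Finset.sum_le_sum fun i hi => ?_
        have hi' : i ≤ n := Nat.lt_succ_iff.mp (Finset.mem_range.mp hi)
        refine mul_le_mul_of_nonneg_left ?_ (Nat.cast_nonneg _)
        exact mul_le_mul (h1 i (hi'.trans hn) p y hy) (h2 (n - i) ((Nat.sub_le _ _).trans hn) p y hy)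
          (by positivity) hC
    _ = 2 ^ n * (C * D) := by
        rw [← Finset.sum_mul]
        congr 1
        have := Nat.sum_range_choose n
        exact_mod_cast this
    _ ≤ 2 ^ N * (C * D) := by
        refine mul_le_mul_of_nonneg_right ?_ (mul_nonneg hC hD)
        exact pow_le_pow_right₀ (by norm_num) hn

end

end P229
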