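import Vale.Agent.P229.D2.Fam1
import Vale.Agent.P229.D2.SlowMul

/-!
# P229, block D2, module FAM2 (helper75)
-/

namespace P229

open Set Real
open scoped ContDiff

noncomputable section

variable {ι : Type} {r s δ : ι → ℝ} {N : ℕ} {F G F' G' : ι → ℝ → ℝ → ℝ}

/-- module FAM2: `G G' - F F' = G (G' - F') + (G - F) F'` -/
theorem UDf.mul (hs : ∀ i, 0 ≤ s i) (hδ : ∀ i, 0 ≤ δ i) (h1 : UDf r s δ N F G)
    (h2 : UDf r s δ N F' G') :
    UDf r s δ N (fun i p y => F i p y * F' i p y) (fun i p y => G i p y * G' i p y) := by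
  obtain ⟨ρ₁, C, hρ₁, hC, H1⟩ := h1
  obtain ⟨ρ₂, D, hρ₂, hD, H2⟩ := h2
  have h2N : (0 : ℝ) ≤ 2 ^ N := by positivity
  have hCD : 0 ≤ C * D := mul_nonneg hC hD
  refine ⟨min ρ₁ ρ₂, 2 * (2 ^ N * (C * D)), lt_min hρ₁ hρ₂, by positivity, ?_⟩
  intro i hi
  obtain ⟨a1, a2, a3, a4, a5⟩ := H1 i (lt_of_lt_of_le hi (min_le_left _ _))
  obtain ⟨b1, b2, b3, b4, b5⟩ := H2 i (lt_of_lt_of_le hi (min_le_right _ _))
  have hle : 2 ^ N * (C * D) ≤ 2 * (2 ^ N * (C * D)) := by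
    have : 0 ≤ 2 ^ N * (C * D) := mul_nonneg h2N hCD
    linarith
  refine ⟨a1.mul b1, a2.mul b2, (SlB.mul a1 b1 (hs i) hC hD a3 b3).mono le_rfl hle,
    (SlB.mul a2 b2 (hs i) hC hD a4 b4).mono le_rfl hle, ?_⟩
  have hdF : PS (fun p y => G i p y - F i p y) := a2.sub a1
  have hdF' : PS (fun p y => G' i p y - F' i p y) := b2.sub b1
  have e1 := SlB.mul a2 hdF' (hs i) hC (mul_nonneg hD (hδ i)) a4 b5
  have e2 := SlB.mul hdF b1 (hs i) (mul_nonneg hC (hδ i)) hD a5 b3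
  have e3 := SlB.add (a2.mul hdF') (hdF.mul b1) (hs i) e1 e2
  have e4 : (fun p y => G i p y * (G' i p y - F' i p y) + (G i p y - F i p y) * F' i p y)
      = fun p y => G i p y * G' i p y - F i p y * F' i p y := by
    funext p y
    ring
  rw [e4] at e3
  refine e3.mono le_rfl (le_of_eq ?_)
  ring

end

end P229
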