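import Vale.Agent.P229.D2.SlowMul

/-!
# P229, block D2, module SLOW_INV (helper75)
-/

namespace P229

open Set Real
open scoped ContDiff

noncomputable section

private theorem slow_inv_ne {F : ℝ → ℝ → ℝ} (h0 : ∀ p, ∀ y ∈ IY, 1 / 2 ≤ F p y) {y : ℝ}
    (hy : y ∈ IY) (p : ℝ) : F p y ≠ 0 := by
  have := h0 p y hy
  intro h
  rw [h] at this
  norm_num at this

private theorem slow_inv_cd {F : ℝ → ℝ → ℝ} (hF : PS F) (h0 : ∀ p, ∀ y ∈ IY, 1 / 2 ≤ F p y)
    {y : ℝ} (hy : y ∈ IY) : ContDiff ℝ ∞ (fun t => (F t y)⁻¹) :=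
  (hF.cd y hy).inv fun p => slow_inv_ne h0 hy p

private theorem slow_inv_rec {F : ℝ → ℝ → ℝ} (hF : PS F) (h0 : ∀ p, ∀ y ∈ IY, 1 / 2 ≤ F p y)
    (m : ℕ) {p y : ℝ} (hy : y ∈ IY) :
    dpn (m + 1) (fun p y => (F p y)⁻¹) p y = -((F p y)⁻¹ * ∑ i ∈ Finset.range (m + 1),
      ((m + 1).choose (i + 1) : ℝ) * dpn (i + 1) F p y *
        dpn (m + 1 - (i + 1)) (fun p y => (F p y)⁻¹) p y) := by
  have hne := slow_inv_ne h0 hy p
  have h1 : ContDiffAt ℝ ((m + 1 : ℕ)) (fun t => F t y) p :=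
    ((hF.cd y hy).of_le (by exact_mod_cast le_top)).contDiffAt
  have h2 : ContDiffAt ℝ ((m + 1 : ℕ)) (fun t => (F t y)⁻¹) p :=
    ((slow_inv_cd hF h0 hy).of_le (by exact_mod_cast le_top)).contDiffAt
  have h3 := iteratedDeriv_fun_mul h1 h2
  have h4 : (fun t => F t y * (F t y)⁻¹) = fun _ => (1 : ℝ) := by
    funext t
    exact mul_inv_cancel₀ (slow_inv_ne h0 hy t)
  rw [h4, iteratedDeriv_const, if_neg (Nat.succ_ne_zero m), Finset.sum_range_succ'] at h3
  unfold dpn
  simp only [Nat.choose_zero_right, Nat.cast_one, one_mul, iteratedDeriv_zero, Nat.sub_zero] at h3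
  have h5 : F p y * iteratedDeriv (m + 1) (fun t => (F t y)⁻¹) p =
      -∑ i ∈ Finset.range (m + 1), ((m + 1).choose (i + 1) : ℝ) *
        iteratedDeriv (i + 1) (fun t => F t y) p *
        iteratedDeriv (m + 1 - (i + 1)) (fun t => (F t y)⁻¹) p := by
    linarith
  rw [← mul_neg, ← h5, ← mul_assoc, inv_mul_cancel₀ hne, one_mul]

/-- module SLOW_INV: induction on `n` from the Leibniz formula for `F * F⁻¹ = 1`. -/
theorem PS.inv {F : ℝ → ℝ → ℝ} (hF : PS F) (h0 : ∀ p, ∀ y ∈ IY, 1 / 2 ≤ F p y) :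
    PS (fun p y => (F p y)⁻¹) := by
  have hF0 : ContinuousOn (fun z : ℝ × ℝ => F z.1 z.2) (univ ×ˢ IY) := by
    refine (hF.cont 0).congr fun z _ => ?_
    show F z.1 z.2 = dpn 0 F z.1 z.2
    unfold dpn
    rw [iteratedDeriv_zero]
  have hG0 : ContinuousOn (fun z : ℝ × ℝ => (F z.1 z.2)⁻¹) (univ ×ˢ IY) :=
    hF0.inv₀ fun z hz => slow_inv_ne h0 hz.2 z.1
  refine ⟨fun y hy => slow_inv_cd hF h0 hy, fun n => ?_⟩
  induction n using Nat.strong_induction_on with
  | _ n ih =>
    rcases n with _ | m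
    · refine hG0.congr fun z _ => ?_
      show dpn 0 (fun p y => (F p y)⁻¹) z.1 z.2 = (F z.1 z.2)⁻¹
      unfold dpn
      rw [iteratedDeriv_zero]
    · have h : ContinuousOn (fun z : ℝ × ℝ => -((F z.1 z.2)⁻¹ * ∑ i ∈ Finset.range (m + 1),
          ((m + 1).choose (i + 1) : ℝ) * dpn (i + 1) F z.1 z.2 *
            dpn (m + 1 - (i + 1)) (fun p y => (F p y)⁻¹) z.1 z.2)) (univ ×ˢ IY) := by
        refine (hG0.mul (continuousOn_finsetSum _ fun i _ => ?_)).neg
        exact (continuousOn_const.mul (hF.cont (i + 1))).mul (ih (m + 1 - (i + 1)) (by omega))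
      refine h.congr fun z hz => ?_
      exact slow_inv_rec hF h0 m hz.2

/-- module SLOW_INV: the constant depends only on `N` and `C`. -/
theorem SlB.inv (N : ℕ) (C : ℝ) : ∃ D : ℝ, 0 ≤ D ∧ ∀ (s : ℝ) (F : ℝ → ℝ → ℝ), 0 ≤ s → PS F →
    (∀ p, ∀ y ∈ IY, 1 / 2 ≤ F p y) → SlB s N C F → SlB s N D (fun p y => (F p y)⁻¹) := by
  have hinv : ∀ F : ℝ → ℝ → ℝ, (∀ p, ∀ y ∈ IY, 1 / 2 ≤ F p y) → ∀ p, ∀ y ∈ IY,
      |(F p y)⁻¹| ≤ 2 := by
    intro F h0 p y hy
    have h1 := h0 p y hy
    rw [abs_inv, abs_of_pos (by linarith), inv_le_comm₀ (by linarith) (by norm_num)]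
    linarith
  induction N with
  | zero =>
    refine ⟨2, by norm_num, fun s F hs hF h0 _ => ?_⟩
    intro n hn p y hy
    obtain rfl : n = 0 := by omega
    unfold dpn
    rw [iteratedDeriv_zero, pow_zero, mul_one]
    exact hinv F h0 p y hy
  | succ N ih =>
    obtain ⟨D, hD, hN⟩ := ih
    refine ⟨D + 2 * (2 ^ (N + 1) * (|C| * D)), by positivity, fun s F hs hF h0 hB => ?_⟩
    have hprev := hN s F hs hF h0 (hB.mono (Nat.le_succ N) le_rfl)
    intro n hn p y hy
    rcases Nat.lt_or_ge N n with hlt | hge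
    · obtain rfl : n = N + 1 := by omega
      rw [slow_inv_rec hF h0 N hy, abs_neg, abs_mul]
      have hsum : |∑ i ∈ Finset.range (N + 1), ((N + 1).choose (i + 1) : ℝ) * dpn (i + 1) F p y *
          dpn (N + 1 - (i + 1)) (fun p y => (F p y)⁻¹) p y| * s ^ (N + 1)
          ≤ 2 ^ (N + 1) * (|C| * D) := by
        calc |∑ i ∈ Finset.range (N + 1), ((N + 1).choose (i + 1) : ℝ) * dpn (i + 1) F p y *
              dpn (N + 1 - (i + 1)) (fun p y => (F p y)⁻¹) p y| * s ^ (N + 1)
            ≤ (∑ i ∈ Finset.range (N + 1), |((N + 1).choose (i + 1) : ℝ) * dpn (i + 1) F p y *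
              dpn (N + 1 - (i + 1)) (fun p y => (F p y)⁻¹) p y|) * s ^ (N + 1) := by
              gcongr
              exact Finset.abs_sum_le_sum_abs _ _
          _ = ∑ i ∈ Finset.range (N + 1), ((N + 1).choose (i + 1) : ℝ) *
              ((|dpn (i + 1) F p y| * s ^ (i + 1)) *
                (|dpn (N + 1 - (i + 1)) (fun p y => (F p y)⁻¹) p y| * s ^ (N + 1 - (i + 1)))) := by
              rw [Finset.sum_mul]
              refine Finset.sum_congr rfl fun i hi => ?_
              have hi' : i < N + 1 := Finset.mem_range.mp hi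
              have hsp : s ^ (N + 1) = s ^ (i + 1) * s ^ (N + 1 - (i + 1)) := by
                rw [← pow_add]; congr 1; omega
              rw [abs_mul, abs_mul, Nat.abs_cast, hsp]
              ring
          _ ≤ ∑ i ∈ Finset.range (N + 1), ((N + 1).choose (i + 1) : ℝ) * (|C| * D) := by
              refine Finset.sum_le_sum fun i hi => ?_
              have hi' : i < N + 1 := Finset.mem_range.mp hi
              refine mul_le_mul_of_nonneg_left ?_ (Nat.cast_nonneg _)
              exact mul_le_mul ((hB (i + 1) (by omega) p y hy).trans (le_abs_self C))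
                (hprev (N + 1 - (i + 1)) (by omega) p y hy) (by positivity) (abs_nonneg C)
          _ ≤ 2 ^ (N + 1) * (|C| * D) := by
              rw [← Finset.sum_mul]
              refine mul_le_mul_of_nonneg_right ?_ (by positivity)
              have h1 := Nat.sum_range_choose (N + 1)
              rw [Finset.sum_range_succ'] at h1
              have h2 : ∑ i ∈ Finset.range (N + 1), (N + 1).choose (i + 1) ≤ 2 ^ (N + 1) := by
                omega
              exact_mod_cast h2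
      calc |(F p y)⁻¹| * |∑ i ∈ Finset.range (N + 1), ((N + 1).choose (i + 1) : ℝ) *
            dpn (i + 1) F p y * dpn (N + 1 - (i + 1)) (fun p y => (F p y)⁻¹) p y| * s ^ (N + 1)
          = |(F p y)⁻¹| * (|∑ i ∈ Finset.range (N + 1), ((N + 1).choose (i + 1) : ℝ) *
            dpn (i + 1) F p y * dpn (N + 1 - (i + 1)) (fun p y => (F p y)⁻¹) p y|
              * s ^ (N + 1)) := by ring
        _ ≤ 2 * (2 ^ (N + 1) * (|C| * D)) :=
            mul_le_mul (hinv F h0 p y hy) hsum (by positivity) (by norm_num)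
        _ ≤ D + 2 * (2 ^ (N + 1) * (|C| * D)) := by linarith
    · have h1 := hprev n hge p y hy
      have h2 : 0 ≤ 2 * (2 ^ (N + 1) * (|C| * D)) := by positivity
      linarith

end

end P229
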