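import Vale.Agent.P229.D2.Fam2
import Vale.Agent.P229.D2.SlowInv

/-!
# P229, block D2, module FAM3 (helper75; proofs helper33)
-/

namespace P229

open Set Real
open scoped ContDiff

noncomputable section

/-- slow bounds only see the values on the strip -/
theorem SlB.congr_fam3 {s : ℝ} {N : ℕ} {C : ℝ} {F G : ℝ → ℝ → ℝ} (h : SlB s N C F)
    (hFG : ∀ y ∈ IY, ∀ t, G t y = F t y) : SlB s N C G := by
  intro n hn p y hy
  have e : dpn n G p y = dpn n F p y := by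
    unfold dpn
    rw [show (fun t => G t y) = fun t => F t y from funext (hFG y hy)]
  rw [e]
  exact h n hn p y hy

/-- the one-configuration statement -/
theorem inv1_fam3 {s a C : ℝ} {N : ℕ} (hs : 0 ≤ s) (ha0 : 0 ≤ a) (ha1 : a ≤ 1)
    (haC : a * C ≤ 1 / 2) (hC : 0 ≤ C) {F : ℝ → ℝ → ℝ} (hF : PS F) (hFC : SlB s N C F) :
    PS (fun p y => 1 + a * F p y) ∧ SlB s N (1 + 2 ^ N * (1 * C)) (fun p y => 1 + a * F p y) ∧
      ∀ p, ∀ y ∈ IY, 1 / 2 ≤ 1 + a * F p y := by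
  have hc : PS (fun _ _ : ℝ => a) := PS.yfun (g := fun _ => a) continuousOn_const
  have h1 : PS (fun _ _ : ℝ => (1 : ℝ)) := PS.yfun (g := fun _ => (1 : ℝ)) continuousOn_const
  have hcb : SlB s N 1 (fun _ _ : ℝ => a) :=
    SlB.yfun (g := fun _ => a) (fun y _ => by rw [abs_of_nonneg ha0]; exact ha1) zero_le_one
  have h1b : SlB s N 1 (fun _ _ : ℝ => (1 : ℝ)) :=
    SlB.yfun (g := fun _ => (1 : ℝ)) (fun y _ => by rw [abs_one]) zero_le_one
  refine ⟨h1.add (hc.mul hF), h1.add (hc.mul hF) |> fun _ =>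
    SlB.add h1 (hc.mul hF) hs h1b (SlB.mul hc hF hs zero_le_one hC hcb hFC), ?_⟩
  intro p y hy
  have h0 := hFC 0 (Nat.zero_le N) p y hy
  rw [pow_zero, mul_one] at h0
  have h2 : dpn 0 F p y = F p y := by simp [dpn]
  rw [h2] at h0
  have h3 : -C ≤ F p y := (abs_le.1 h0).1
  have h4 : a * (-C) ≤ a * F p y := mul_le_mul_of_nonneg_left h3 ha0
  linarith

variable {ι : Type} {r s δ : ι → ℝ} {N : ℕ} {F G F' G' : ι → ℝ → ℝ → ℝ}

/-- module FAM3: `(1 + a i * F i)⁻¹` where `a i → 0` as `r i → 0`. `G⁻¹ - F⁻¹ = (F - G) F⁻¹ G⁻¹`. -/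
theorem UDf.inv1 (hs : ∀ i, 0 ≤ s i) (hδ : ∀ i, 0 ≤ δ i) {a : ι → ℝ}
    (ha : ∀ i, 0 ≤ a i ∧ a i ≤ r i) (h : UDf r s δ N F G) :
    UDf r s δ N (fun i p y => (1 + a i * F i p y)⁻¹) (fun i p y => (1 + a i * G i p y)⁻¹) := by
  obtain ⟨ρ, C, hρ, hC, h⟩ := h
  obtain ⟨D, hD, hDinv⟩ := SlB.inv N (1 + 2 ^ N * (1 * C))
  have hK : 0 ≤ 2 ^ N * 2 ^ N * 2 ^ N * C * D * D := by positivity
  refine ⟨min ρ (min 1 (1 / (2 * (C + 1)))), D + 2 ^ N * 2 ^ N * 2 ^ N * C * D * D,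
    lt_min hρ (lt_min one_pos (by positivity)), by positivity, ?_⟩
  intro i hi
  obtain ⟨hF, hG, hFC, hGC, hFG⟩ := h i (hi.trans_le (min_le_left _ _))
  obtain ⟨ha0, har⟩ := ha i
  have ha1 : a i ≤ 1 :=
    har.trans (hi.le.trans ((min_le_right _ _).trans (min_le_left _ _)))
  have haC : a i * C ≤ 1 / 2 := by
    have h1 : a i ≤ 1 / (2 * (C + 1)) :=
      har.trans (hi.le.trans ((min_le_right _ _).trans (min_le_right _ _)))
    have h2 : a i * C ≤ 1 / (2 * (C + 1)) * C := mul_le_mul_of_nonneg_right h1 hC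
    refine h2.trans ?_
    rw [div_mul_eq_mul_div, one_mul, div_le_div_iff₀ (by positivity) two_pos]
    linarith
  obtain ⟨hH, hHb, hH2⟩ := inv1_fam3 (hs i) ha0 ha1 haC hC hF hFC
  obtain ⟨hL, hLb, hL2⟩ := inv1_fam3 (hs i) ha0 ha1 haC hC hG hGC
  have hHi := PS.inv hH hH2
  have hLi := PS.inv hL hL2
  have hHib := hDinv (s i) _ (hs i) hH hH2 hHb
  have hLib := hDinv (s i) _ (hs i) hL hL2 hLb
  refine ⟨hHi, hLi, hHib.mono le_rfl (le_add_of_nonneg_right hK),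
    hLib.mono le_rfl (le_add_of_nonneg_right hK), ?_⟩
  have hc : PS (fun _ _ : ℝ => -(a i)) := PS.yfun (g := fun _ => -(a i)) continuousOn_const
  have hcb : SlB (s i) N 1 (fun _ _ : ℝ => -(a i)) :=
    SlB.yfun (g := fun _ => -(a i))
      (fun y _ => by rw [abs_neg, abs_of_nonneg ha0]; exact ha1) zero_le_one
  have hd := hG.sub hF
  have e1 := SlB.mul hc hd (hs i) zero_le_one (mul_nonneg hC (hδ i)) hcb hFG
  have n1 : 0 ≤ 2 ^ N * (1 * (C * δ i)) := by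
    have := hδ i
    positivity
  have e2 := SlB.mul (hc.mul hd) hHi (hs i) n1 hD e1 hHib
  have n2 : 0 ≤ 2 ^ N * (2 ^ N * (1 * (C * δ i)) * D) := by
    have := hδ i
    positivity
  have e3 := SlB.mul ((hc.mul hd).mul hHi) hLi (hs i) n2 hD e2 hLib
  have e4 : SlB (s i) N (2 ^ N * (2 ^ N * (2 ^ N * (1 * (C * δ i)) * D) * D))
      (fun p y => (1 + a i * G i p y)⁻¹ - (1 + a i * F i p y)⁻¹) := by
    refine e3.congr_fam3 fun y hy t => ?_
    have p1 : (0 : ℝ) < 1 + a i * F i t y := lt_of_lt_of_le (by norm_num) (hH2 t y hy)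
    have p2 : (0 : ℝ) < 1 + a i * G i t y := lt_of_lt_of_le (by norm_num) (hL2 t y hy)
    field_simp
    ring
  refine e4.mono le_rfl ?_
  have hδi := hδ i
  have : 0 ≤ D * δ i := mul_nonneg hD hδi
  nlinarith

end

end P229
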