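import Vale.Agent.P229.D2.PP
import Vale.Agent.P229.Prof

/-!
# P229, block D2, module PPALG (helper75)
-/

namespace P229

open Set Real
open scoped ContDiff

noncomputable section

/-- module PPALG (algebra; unfold everything, `epsc = r^2 eps`, treat `(1 + ..)⁻¹` as an atom) -/
theorem EE0_eq (P : Par) (mu p y x uy upp upy uyy : ℝ) :
    EE0 P mu p y x uy upp upy uyy = uyy + P.eps * mu * chi y * upp +
      P.r ^ 2 * P.eps * PPalg P.r P.eps mu p (chi y) (deriv chi y) (kk y) (deriv kk y)
        x uy upp upy := by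
  have hec : P.epsc = P.r ^ 2 * P.eps := by
    unfold Par.epsc Par.eps
    rw [pow_add, mul_comm]
  have h0 : b0 P x y = P.eps * bt P.r (chi y) (kk y) x := by
    unfold b0 bt; rw [hec]; ring
  have h1 : b0x P x y = P.eps * btx P.r (chi y) (kk y) x := by
    unfold b0x btx; rw [hec]; ring
  have h2 : b0xx P x y = P.eps * (-chi y + P.r ^ 2 * kk y * (1 - x ^ 2)) := by
    unfold b0xx; rw [hec]; ring
  have h3 : b0y P x y = P.eps * bt P.r (deriv chi y) (deriv kk y) x := by
    unfold b0y bt; rw [hec]; ring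
  have hB : 1 + P.r ^ 2 * b0 P x y = 1 + P.r ^ 2 * P.eps * bt P.r (chi y) (kk y) x := by
    rw [h0]; ring
  unfold EE0 EEalg PPalg
  rw [hB, h1, h2, h3]
  simp only [div_eq_mul_inv]
  generalize hBi : (1 + P.r ^ 2 * P.eps * bt P.r (chi y) (kk y) x)⁻¹ = Bi
  generalize bt P.r (chi y) (kk y) x = b
  generalize btx P.r (chi y) (kk y) x = bx
  generalize bt P.r (deriv chi y) (deriv kk y) x = b'
  ring

end

end P229
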