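import Vale.Agent.P229.D2.PP
import Vale.Agent.P229.D2.Fam3
import Vale.Agent.P229.Prof

/-!
# P229, block D2, module PPFAM (helper75)
-/

namespace P229

open Set Real
open scoped ContDiff

noncomputable section

variable {ι : Type} {r s δ : ι → ℝ} {N : ℕ}

section PPFAM

variable (hr : ∀ i, 0 < r i ∧ r i ≤ 1) (hs : ∀ i, 0 ≤ s i ∧ s i ≤ 1) (hδ : ∀ i, 0 ≤ δ i)

include hs hδ

theorem PPFAM_num (c : ℝ) : UDf r s δ N (fun _ _ _ => c) (fun _ _ _ => c) :=
  UDf.const (fun i => (hs i).1) hδ (A := |c|) (fun _ => le_rfl)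

theorem PPFAM_mul {F G F' G' : ι → ℝ → ℝ → ℝ} (h1 : UDf r s δ N F G) (h2 : UDf r s δ N F' G') :
    UDf r s δ N (fun i p y => F i p y * F' i p y) (fun i p y => G i p y * G' i p y) :=
  UDf.mul (fun i => (hs i).1) hδ h1 h2

theorem PPFAM_smul {F G : ι → ℝ → ℝ → ℝ} (c : ℝ) (h1 : UDf r s δ N F G) :
    UDf r s δ N (fun i p y => c * F i p y) (fun i p y => c * G i p y) :=
  PPFAM_mul hs hδ (PPFAM_num hs hδ c) h1

include hr

theorem PPFAM_r2 : UDf r s δ N (fun i _ _ => r i ^ 2) (fun i _ _ => r i ^ 2) :=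
  UDf.const (fun i => (hs i).1) hδ (A := 1) (fun i => by
    rw [abs_of_nonneg (by positivity)]
    exact pow_le_one₀ (hr i).1.le (hr i).2)

theorem PPFAM_bt {X K : ℝ → ℝ} (hX : ContinuousOn X IY) (hK : ContinuousOn K IY)
    {F G : ι → ℝ → ℝ → ℝ} (h : UDf r s δ N F G) :
    UDf r s δ N (fun i p y => bt (r i) (X y) (K y) (F i p y))
      (fun i p y => bt (r i) (X y) (K y) (G i p y)) := by
  have hX' : UDf r s δ N (fun _ _ y => X y) (fun _ _ y => X y) :=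
    UDf.yfun (fun i => (hs i).1) hδ hX
  have hK' : UDf r s δ N (fun _ _ y => K y) (fun _ _ y => K y) :=
    UDf.yfun (fun i => (hs i).1) hδ hK
  have h2 := PPFAM_mul hs hδ h h
  have h4 := PPFAM_mul hs hδ h2 h2
  have a1 := PPFAM_smul hs hδ (-(1 / 2)) (PPFAM_mul hs hδ hX' h2)
  have a2 := UDf.sub (fun i => (hs i).1) (PPFAM_smul hs hδ (1 / 2) h2)
    (PPFAM_smul hs hδ (1 / 12) h4)
  have a3 := PPFAM_mul hs hδ (PPFAM_mul hs hδ (PPFAM_r2 hr hs hδ) hK') a2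
  have a4 := UDf.add (fun i => (hs i).1) a1 a3
  refine (iff_of_eq ?_).mp a4
  congr 1 <;> (funext i p y; unfold bt; ring)

theorem PPFAM_btx {X K : ℝ → ℝ} (hX : ContinuousOn X IY) (hK : ContinuousOn K IY)
    {F G : ι → ℝ → ℝ → ℝ} (h : UDf r s δ N F G) :
    UDf r s δ N (fun i p y => btx (r i) (X y) (K y) (F i p y))
      (fun i p y => btx (r i) (X y) (K y) (G i p y)) := by
  have hX' : UDf r s δ N (fun _ _ y => X y) (fun _ _ y => X y) :=
    UDf.yfun (fun i => (hs i).1) hδ hX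
  have hK' : UDf r s δ N (fun _ _ y => K y) (fun _ _ y => K y) :=
    UDf.yfun (fun i => (hs i).1) hδ hK
  have h3 := PPFAM_mul hs hδ (PPFAM_mul hs hδ h h) h
  have a1 := PPFAM_smul hs hδ (-1) (PPFAM_mul hs hδ hX' h)
  have a2 := UDf.sub (fun i => (hs i).1) h (PPFAM_smul hs hδ (1 / 3) h3)
  have a3 := PPFAM_mul hs hδ (PPFAM_mul hs hδ (PPFAM_r2 hr hs hδ) hK') a2
  have a4 := UDf.add (fun i => (hs i).1) a1 a3
  refine (iff_of_eq ?_).mp a4
  congr 1 <;> (funext i p y; unfold btx; ring)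

end PPFAM

/-- module PPFAM: closure lemmas of `Fam.lean` -/
theorem PP_UDf {e mu : ι → ℝ} {A : ℝ} {pt : ℝ → ℝ} (hr : ∀ i, 0 < r i ∧ r i ≤ 1)
    (hs : ∀ i, 0 ≤ s i ∧ s i ≤ 1)
    (he : ∀ i, 0 ≤ e i ∧ e i ≤ 1) (hmu : ∀ i, |mu i| ≤ A) (hδ : ∀ i, 0 ≤ δ i)
    (hpt : ContDiff ℝ ∞ pt) (hptc : HasCompactSupport pt) {F1 F2 F3 F4 G1 G2 G3 G4 : ι → ℝ → ℝ → ℝ}
    (h1 : UDf r s δ N F1 G1) (h2 : UDf r s δ N F2 G2) (h3 : UDf r s δ N F3 G3)
    (h4 : UDf r s δ N F4 G4) :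
    UDf r s δ N
      (fun i p y => PPalg (r i) (e i) (mu i) (pt p) (chi y) (deriv chi y) (kk y) (deriv kk y)
        (F1 i p y) (F2 i p y) (F3 i p y) (F4 i p y))
      (fun i p y => PPalg (r i) (e i) (mu i) (pt p) (chi y) (deriv chi y) (kk y) (deriv kk y)
        (G1 i p y) (G2 i p y) (G3 i p y) (G4 i p y)) := by
  have hs0 : ∀ i, 0 ≤ s i := fun i => (hs i).1
  have cchi : ContinuousOn chi IY := chi_contDiff.continuous.continuousOn
  have ckk : ContinuousOn kk IY := kk_contDiff.continuous.continuousOn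
  have cchi' : ContinuousOn (deriv chi) IY :=
    (chi_contDiff.continuous_deriv (by simp)).continuousOn
  have ckk' : ContinuousOn (deriv kk) IY :=
    (kk_contDiff.continuous_deriv (by simp)).continuousOn
  have uX : UDf r s δ N (fun _ _ y => chi y) (fun _ _ y => chi y) := UDf.yfun hs0 hδ cchi
  have uK : UDf r s δ N (fun _ _ y => kk y) (fun _ _ y => kk y) := UDf.yfun hs0 hδ ckk
  have up : UDf r s δ N (fun _ p _ => pt p) (fun _ p _ => pt p) :=
    UDf.pfun hs0 (fun i => (hs i).2) hδ hpt hptc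
  have ue : UDf r s δ N (fun i _ _ => e i) (fun i _ _ => e i) :=
    UDf.const hs0 hδ (A := 1) (fun i => by rw [abs_of_nonneg (he i).1]; exact (he i).2)
  have umu : UDf r s δ N (fun i _ _ => mu i) (fun i _ _ => mu i) := UDf.const hs0 hδ hmu
  have ur := PPFAM_r2 (N := N) hr hs hδ
  have u1 := PPFAM_num (r := r) (N := N) hs hδ 1
  have ub := PPFAM_bt hr hs hδ cchi ckk h1
  have ub' := PPFAM_bt hr hs hδ cchi' ckk' h1
  have ubx := PPFAM_btx hr hs hδ cchi ckk h1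
  have uBi : UDf r s δ N
      (fun i p y => (1 + (r i ^ 2 * e i) * bt (r i) (chi y) (kk y) (F1 i p y))⁻¹)
      (fun i p y => (1 + (r i ^ 2 * e i) * bt (r i) (chi y) (kk y) (G1 i p y))⁻¹) := by
    refine UDf.inv1 hs0 hδ (a := fun i => r i ^ 2 * e i) (fun i => ⟨?_, ?_⟩) ub
    · have := (he i).1
      positivity
    · have h5 := (hr i).1
      have h6 : r i ^ 2 * e i ≤ r i ^ 2 * 1 := mul_le_mul_of_nonneg_left (he i).2 (by positivity)
      have h7 : r i ^ 2 ≤ r i := by nlinarith [(hr i).2]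
      linarith
  have mm : ∀ {F G F' G' : ι → ℝ → ℝ → ℝ}, UDf r s δ N F G → UDf r s δ N F' G' →
      UDf r s δ N (fun i p y => F i p y * F' i p y) (fun i p y => G i p y * G' i p y) :=
    fun h h' => PPFAM_mul hs hδ h h'
  have aa : ∀ {F G F' G' : ι → ℝ → ℝ → ℝ}, UDf r s δ N F G → UDf r s δ N F' G' →
      UDf r s δ N (fun i p y => F i p y + F' i p y) (fun i p y => G i p y + G' i p y) :=
    fun h h' => UDf.add hs0 h h'
  have ss : ∀ {F G F' G' : ι → ℝ → ℝ → ℝ}, UDf r s δ N F G → UDf r s δ N F' G' →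
      UDf r s δ N (fun i p y => F i p y - F' i p y) (fun i p y => G i p y - G' i p y) :=
    fun h h' => UDf.sub hs0 h h'
  have uB := aa u1 (mm (mm ur ue) ub)
  have uq := PPFAM_smul hs hδ (-1) (mm h2 uBi)
  have uq2 := mm uq uq
  have t1 := PPFAM_smul hs hδ 2 (mm (mm ubx uq) h4)
  have t2 := mm (mm (mm (mm ur ue) (mm ubx ubx)) uq2) h3
  have upq := aa (mm up up) uq2
  have t3 := mm uX (ss (mm (mm ue ub) umu) (mm upq uB))
  have t4 := mm (mm (mm uB (ss umu (mm ur upq))) uK) (ss u1 (mm h1 h1))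
  have t5 := mm (ss t3 t4) h3
  have t6 := ss (mm uq ub') (mm (mm uB up) ubx)
  have t7 := aa (aa (aa t1 t2) t5) t6
  refine (iff_of_eq ?_).mp t7
  congr 1 <;> (funext i p y; unfold PPalg; ring)

end

end P229
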