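import Vale.Agent.P229.D2.DataDefs
import Vale.Agent.P229.D2.Jets
import Vale.Agent.P229.D2.Kap
import Vale.Agent.P229.D2.PPFam

/-!
# P229, block D2, module STAGE0 (helper75)
-/

namespace P229

open Set Real
open scoped ContDiff

noncomputable section

open D1 (CJet)

private theorem s0_dpn_zero (n : ℕ) (p y : ℝ) : dpn n (fun _ _ => (0 : ℝ)) p y = 0 := by
  simp [dpn]

private theorem s0_UDf {ι : Type} {r s : ι → ℝ} {N : ℕ} {ρ C : ℝ} (hρ : 0 < ρ) (hC : 0 ≤ C)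
    {f : ι → ℝ → ℝ → ℝ} (h1 : ∀ i, r i < ρ → PS (f i)) (h2 : ∀ i, r i < ρ → SlB (s i) N C (f i)) :
    UDf r s (fun _ => 0) N f f := by
  refine ⟨ρ, C, hρ, hC, fun i hi => ⟨h1 i hi, h1 i hi, h2 i hi, h2 i hi, ?_⟩⟩
  intro n hn p y hy
  have : dpn n (fun p y => f i p y - f i p y) p y = 0 := by simp [dpn]
  rw [this]
  simp

private theorem s0_NN (r s mu : ℝ) (T : TJ) (n : ℕ) (p y : ℝ) :
    dpn n (fun p y => NN r (s ^ 2) mu T p y - 0) p y =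
      (r ^ 2 * s ^ 2) * dpn n (fun p y => PPalg r (s ^ 2) mu (pt p) (chi y) (deriv chi y) (kk y)
        (deriv kk y) (T.W 1 p y) (T.V 0 p y) (T.W 2 p y) (T.V 1 p y)) p y := by
  unfold dpn NN
  simp only [sub_zero]
  exact iteratedDeriv_const_mul_field (r ^ 2 * s ^ 2) (fun t => PPalg r (s ^ 2) mu (pt t) (chi y)
    (deriv chi y) (kk y) (deriv kk y) (T.W 1 t y) (T.V 0 t y) (T.W 2 t y) (T.V 1 t y))

/-- module STAGE0: the initial stage (`PP_UDf` with `F = G`, `δ = 0`, gives the bound of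
`NN(T0)`) -/
theorem stage_zero {ι : Type} {r s mu : ι → ℝ} {A : ℝ} (hr : ∀ i, 0 < r i ∧ r i ≤ 1)
    (hs : ∀ i, 0 < s i ∧ s i ≤ 1) (hmu : ∀ i, 0 ≤ mu i ∧ mu i ≤ A) {Fm Fp : ι → ℝ → ℝ}
    {T0 : ι → TJ} (N : ℕ) (h : ∃ ρ C : ℝ, 0 < ρ ∧ 0 ≤ C ∧ ∀ i, r i < ρ →
      BaseOK (s i) (mu i) N C (Fm i) (Fp i) (T0 i)) :
    ∃ ρ C : ℝ, 0 < ρ ∧ 0 ≤ C ∧ ∀ i, r i < ρ →
      Stage (r i) (s i) (mu i) N 0 C (Fm i) (Fp i) (T0 i) (T0 i) (fun _ _ => 0) := by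
  obtain ⟨ρ₀, C₀, hρ₀, hC₀, hb⟩ := h
  have hPP := PP_UDf (ι := ι) (r := r) (s := s) (δ := fun _ => 0) (N := N)
    (e := fun i => (s i) ^ 2) (mu := mu) (A := A) (pt := pt) hr
    (fun i => ⟨(hs i).1.le, (hs i).2⟩)
    (fun i => ⟨sq_nonneg _, pow_le_one₀ (hs i).1.le (hs i).2⟩)
    (fun i => by rw [abs_of_nonneg (hmu i).1]; exact (hmu i).2) (fun _ => le_rfl)
    pt_contDiff pt_compact
    (s0_UDf (f := fun i => (T0 i).W 1) hρ₀ hC₀ (fun i hi => CJet.ps (hb i hi).ok.cW 1)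
      (fun i hi => (hb i hi).b1))
    (s0_UDf (f := fun i => (T0 i).V 0) hρ₀ hC₀ (fun i hi => CJet.ps (hb i hi).ok.cV 0)
      (fun i hi => (hb i hi).b2))
    (s0_UDf (f := fun i => (T0 i).W 2) hρ₀ hC₀ (fun i hi => CJet.ps (hb i hi).ok.cW 2)
      (fun i hi => (hb i hi).b3))
    (s0_UDf (f := fun i => (T0 i).V 1) hρ₀ hC₀ (fun i hi => CJet.ps (hb i hi).ok.cV 1)
      (fun i hi => (hb i hi).b4))
  obtain ⟨ρ₁, C₁, hρ₁, hC₁, hP⟩ := hPP
  refine ⟨min ρ₀ ρ₁, max C₀ C₁, lt_min hρ₀ hρ₁, hC₀.trans (le_max_left _ _), fun i hi => ?_⟩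
  have hi0 : r i < ρ₀ := lt_of_lt_of_le hi (min_le_left _ _)
  have hi1 : r i < ρ₁ := lt_of_lt_of_le hi (min_le_right _ _)
  have hB := hb i hi0
  have hCC : C₀ ≤ max C₀ C₁ := le_max_left _ _
  have hC1 : C₁ ≤ max C₀ C₁ := le_max_right _ _
  have hC : 0 ≤ max C₀ C₁ := hC₀.trans hCC
  have hrs : 0 ≤ (r i) ^ 2 * (s i) ^ 2 := by positivity
  refine
    { ok := hB.ok
      hg := ⟨fun _ _ => contDiff_const, fun n => ?_⟩
      low := hB.low
      high := hB.high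
      eq := ?_
      b1 := hB.b1.mono le_rfl hCC
      b2 := hB.b2.mono le_rfl hCC
      b3 := hB.b3.mono le_rfl hCC
      b4 := hB.b4.mono le_rfl hCC
      res := ?_
      cW := ?_
      cV := ?_ }
  · have : Function.uncurry (dpn n (fun _ _ => (0 : ℝ))) = fun _ => 0 := by
      funext x
      exact s0_dpn_zero n _ _
    rw [this]
    exact continuousOn_const
  · intro n p hp y hy
    have h0 : dpn n (fun p _ => kap p * (0 : ℝ)) p y = 0 := by simp [dpn]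
    rw [h0, hB.eq n p hp y hy]
    ring
  · intro n hn p y hy
    rw [s0_NN, abs_mul, abs_of_nonneg hrs, pow_zero, mul_one]
    have h1 := (hP i hi1).2.2.1 n hn p y hy
    calc (r i) ^ 2 * (s i) ^ 2 * |dpn n (fun p y => PPalg (r i) ((s i) ^ 2) (mu i) (pt p) (chi y)
          (deriv chi y) (kk y) (deriv kk y) ((T0 i).W 1 p y) ((T0 i).V 0 p y) ((T0 i).W 2 p y)
          ((T0 i).V 1 p y)) p y| * (s i) ^ n
        = (r i) ^ 2 * (s i) ^ 2 * (|dpn n (fun p y => PPalg (r i) ((s i) ^ 2) (mu i) (pt p) (chi y)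
          (deriv chi y) (kk y) (deriv kk y) ((T0 i).W 1 p y) ((T0 i).V 0 p y) ((T0 i).W 2 p y)
          ((T0 i).V 1 p y)) p y| * (s i) ^ n) := by ring
      _ ≤ (r i) ^ 2 * (s i) ^ 2 * max C₀ C₁ := by
          exact mul_le_mul_of_nonneg_left (h1.trans hC1) hrs
      _ = max C₀ C₁ * ((r i) ^ 2 * (s i) ^ 2) := by ring
  · intro n _ p y _
    rw [sub_self, abs_zero, zero_mul]
    exact mul_nonneg hC hrs
  · intro n _ p y _
    rw [sub_self, abs_zero, zero_mul]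
    exact mul_nonneg hC hrs

end

end P229
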