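import Vale.Agent.P229.D2.StepLin
import Vale.Agent.P229.D2.PPFam

/-!
# P229, block D2, module STEP (helper75)
-/

namespace P229

open Set Real
open scoped ContDiff

noncomputable section

open D1 (CJet)

variable {ι : Type} {r s mu : ι → ℝ}

theorem STEP_const (c : ℝ) {F : ℝ → ℝ → ℝ} (n : ℕ) {p y : ℝ} :
    dpn n (fun p y => c * F p y) p y = c * dpn n F p y := by
  unfold dpn
  exact iteratedDeriv_const_mul_field c _

theorem STEP_PS_const (c : ℝ) {F : ℝ → ℝ → ℝ} (hF : PS F) : PS (fun p y => c * F p y) := by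
  refine ⟨fun y hy => contDiff_const.mul (hF.cd y hy), fun n => ?_⟩
  have h1 : Function.uncurry (dpn n (fun p y => c * F p y)) =
      fun z => c * Function.uncurry (dpn n F) z := by
    funext z
    exact STEP_const c n
  rw [h1]
  exact continuousOn_const.mul (hF.cont n)

theorem STEP_SlB_const {s : ℝ} {N : ℕ} {C c : ℝ} (hc : 0 ≤ c) {F : ℝ → ℝ → ℝ}
    (h : SlB s N C F) : SlB s N (C * c) (fun p y => c * F p y) := by
  intro n hn p y hy
  rw [STEP_const, abs_mul, abs_of_nonneg hc]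
  have := mul_le_mul_of_nonneg_left (h n hn p y hy) hc
  linarith

theorem STEP_NN_eq (r e mu : ℝ) (T : TJ) : NN r e mu T = fun p y => (r ^ 2 * e) *
    (fun p y => PPalg r e mu (pt p) (chi y) (deriv chi y) (kk y) (deriv kk y)
      (T.W 1 p y) (T.V 0 p y) (T.W 2 p y) (T.V 1 p y)) p y := rfl

/-- one component: from the bounds of the increment -/
theorem STEP_comp {s δ C C' : ℝ} {N m j : ℕ} (hs : 0 < s) (hs1 : s ≤ 1) (hδ : 0 ≤ δ)
    (hδ1 : δ ≤ 1) (hC' : 0 ≤ C') (hj : j ≤ 2) {f d : ℕ → ℝ → ℝ → ℝ} (hf : CJet f) (hd : CJet d)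
    (hfd : CJet (fun n p y => f n p y + d n p y)) (hb : SlB s N C (f m))
    (hD : ∀ n ≤ N, ∀ p, ∀ y ∈ IY, |d (n + m) p y| * s ^ (n + j) ≤ C' * (s ^ 2 * δ)) :
    PS (f m) ∧ PS (fun p y => f m p y + d m p y) ∧ SlB s N C (f m) ∧
      SlB s N (C + C') (fun p y => f m p y + d m p y) ∧
      SlB s N (C' * δ) (fun p y => (f m p y + d m p y) - f m p y) := by
  have key : ∀ n ≤ N, ∀ p, ∀ y ∈ IY, |d (n + m) p y| * s ^ n ≤ C' * δ := by
    intro n hn p y hy
    have h1 := hD n hn p y hy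
    have h2 : |d (n + m) p y| * s ^ n * s ^ 2 ≤ |d (n + m) p y| * s ^ (n + j) := by
      rw [mul_assoc, ← pow_add]
      exact mul_le_mul_of_nonneg_left (pow_le_pow_of_le_one hs.le hs1 (by omega)) (abs_nonneg _)
    have h3 : |d (n + m) p y| * s ^ n * s ^ 2 ≤ C' * δ * s ^ 2 := by
      calc _ ≤ _ := h2
        _ ≤ _ := h1
        _ = _ := by ring
    exact le_of_mul_le_mul_right h3 (by positivity)
  refine ⟨CJet.ps hf m, CJet.ps hfd m, hb, ?_, ?_⟩
  · intro n hn p y hy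
    have h1 : dpn n (fun p y => f m p y + d m p y) p y = f (n + m) p y + d (n + m) p y :=
      CJet.dpn_eq hfd n m p hy
    rw [h1]
    have h2 := hb n hn p y hy
    rw [CJet.dpn_eq hf n m p hy] at h2
    have h3 := key n hn p y hy
    have h4 : C' * δ ≤ C' := by nlinarith
    calc |f (n + m) p y + d (n + m) p y| * s ^ n
        ≤ (|f (n + m) p y| + |d (n + m) p y|) * s ^ n :=
          mul_le_mul_of_nonneg_right (abs_add_le _ _) (by positivity)
      _ = |f (n + m) p y| * s ^ n + |d (n + m) p y| * s ^ n := by ring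
      _ ≤ C + C' := by linarith
  · have h1 : (fun p y => (f m p y + d m p y) - f m p y) = d m := by
      funext p y; ring
    rw [h1]
    intro n hn p y hy
    rw [CJet.dpn_eq hd n m p hy]
    exact key n hn p y hy

/-- module STEP: `D` from `step_lin` with `R = NN(T) - g`, `a = r^2 s^2 (r^2)^k`; `T' = T + D`,
`g' = NN(T)`; `PP_UDf` with `δ = (r^2)^(k+1)` gives the new residual.
(`D` gives amplitude `C r^2 s^2 (r^2)^k` for `W, V`, hence `C (r^2)^(k+1)` for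
`W 1, W 2, V 0, V 1`, with `N` derivatives if one starts from `N + 2` in `step_lin` with
`N + 4` in the stage.) -/
theorem stage_step {A : ℝ} (hr : ∀ i, 0 < r i ∧ r i ≤ 1) (hs : ∀ i, 0 < s i ∧ s i ≤ 1)
    (hmu : ∀ i, 0 ≤ mu i ∧ mu i ≤ A) {Fm Fp : ι → ℝ → ℝ} {T0 T : ι → TJ} {g : ι → ℝ → ℝ → ℝ}
    (N k : ℕ)
    (h : ∃ ρ C : ℝ, 0 < ρ ∧ 0 ≤ C ∧ ∀ i, r i < ρ →
      Stage (r i) (s i) (mu i) (N + 4) k C (Fm i) (Fp i) (T0 i) (T i) (g i)) :
    ∃ (T' : ι → TJ) (g' : ι → ℝ → ℝ → ℝ), ∃ ρ C : ℝ, 0 < ρ ∧ 0 ≤ C ∧ ∀ i, r i < ρ →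
      Stage (r i) (s i) (mu i) N (k + 1) C (Fm i) (Fp i) (T0 i) (T' i) (g' i) := by
  obtain ⟨ρ0, C0, hρ0, hC0, hst⟩ := h
  have hs0 : ∀ i, 0 ≤ s i := fun i => (hs i).1.le
  have hs01 : ∀ i, 0 ≤ s i ∧ s i ≤ 1 := fun i => ⟨(hs i).1.le, (hs i).2⟩
  have he : ∀ i, 0 ≤ s i ^ 2 ∧ s i ^ 2 ≤ 1 := fun i =>
    ⟨by positivity, pow_le_one₀ (hs i).1.le (hs i).2⟩
  have hmuA : ∀ i, |mu i| ≤ A := fun i => by rw [abs_of_nonneg (hmu i).1]; exact (hmu i).2
  -- the nonlinear term of `T`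
  have u1 : UDf r s (fun _ => 0) (N + 4) (fun i => (T i).W 1) (fun i => (T i).W 1) :=
    USl.refl hs0 (fun _ => le_rfl)
      ⟨ρ0, C0, hρ0, hC0, fun i hi => ⟨CJet.ps (hst i hi).ok.cW 1, (hst i hi).b1⟩⟩
  have u2 : UDf r s (fun _ => 0) (N + 4) (fun i => (T i).V 0) (fun i => (T i).V 0) :=
    USl.refl hs0 (fun _ => le_rfl)
      ⟨ρ0, C0, hρ0, hC0, fun i hi => ⟨CJet.ps (hst i hi).ok.cV 0, (hst i hi).b2⟩⟩
  have u3 : UDf r s (fun _ => 0) (N + 4) (fun i => (T i).W 2) (fun i => (T i).W 2) :=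
    USl.refl hs0 (fun _ => le_rfl)
      ⟨ρ0, C0, hρ0, hC0, fun i hi => ⟨CJet.ps (hst i hi).ok.cW 2, (hst i hi).b3⟩⟩
  have u4 : UDf r s (fun _ => 0) (N + 4) (fun i => (T i).V 1) (fun i => (T i).V 1) :=
    USl.refl hs0 (fun _ => le_rfl)
      ⟨ρ0, C0, hρ0, hC0, fun i hi => ⟨CJet.ps (hst i hi).ok.cV 1, (hst i hi).b4⟩⟩
  obtain ⟨ρ1, C1, hρ1, hC1, hPP⟩ := PP_UDf (A := A) (e := fun i => s i ^ 2) hr hs01 he hmuA
    (fun _ => le_rfl) pt_contDiff pt_compact u1 u2 u3 u4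
  have hNN : ∀ i, r i < ρ1 → PS (NN (r i) (s i ^ 2) (mu i) (T i)) := fun i hi => by
    rw [STEP_NN_eq]
    exact STEP_PS_const _ (hPP i hi).1
  obtain ⟨C', hC', hlin⟩ := step_lin A C0 (N + 2)
  -- the increment
  have hD : ∀ i, ∃ D : TJ, r i < min ρ0 ρ1 → (D.OK ∧
      (∀ p, |p| ≤ 3 → D.W 0 p (-YY) = 0) ∧ (∀ p, |p| ≤ 3 → D.W 0 p YY = 0) ∧
      (∀ n p, |p| ≤ 3 → ∀ y ∈ IY, D.X n p y =
        -dpn n (fun p y => kap p * (NN (r i) (s i ^ 2) (mu i) (T i) p y - g i p y)) p y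
          - s i ^ 2 * mu i * chi y * D.W (n + 2) p y) ∧
      (∀ n ≤ N + 2 + 2, ∀ p, ∀ y ∈ IY, |D.W n p y| * s i ^ n ≤
        C' * (r i ^ 2 * s i ^ 2 * (r i ^ 2) ^ k)) ∧
      (∀ n ≤ N + 2, ∀ p, ∀ y ∈ IY, |D.V n p y| * s i ^ n ≤
        C' * (r i ^ 2 * s i ^ 2 * (r i ^ 2) ^ k))) := by
    intro i
    by_cases hi : r i < min ρ0 ρ1
    · have h0 := hst i (hi.trans_le (min_le_left _ _))
      have h1 := hNN i (hi.trans_le (min_le_right _ _))
      obtain ⟨D, hD⟩ := hlin (s i) (mu i) (r i ^ 2 * s i ^ 2 * (r i ^ 2) ^ k)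
        (fun p y => NN (r i) (s i ^ 2) (mu i) (T i) p y - g i p y) (hs i).1 (hs i).2 (hmu i).1
        (hmu i).2 (by positivity) (PS.sub h1 h0.hg) h0.res
      exact ⟨D, fun _ => hD⟩
    · exact ⟨T i, fun h => absurd h hi⟩
  choose D hD using hD
  have hsδ : ∀ i, r i ^ 2 * s i ^ 2 * (r i ^ 2) ^ k = s i ^ 2 * (r i ^ 2) ^ (k + 1) := fun i => by
    ring
  have hδ0 : ∀ i, 0 ≤ (r i ^ 2) ^ (k + 1) := fun i => by positivity
  have hr21 : ∀ i, r i ^ 2 ≤ 1 := fun i => pow_le_one₀ (hr i).1.le (hr i).2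
  have hδ1 : ∀ i, (r i ^ 2) ^ (k + 1) ≤ 1 := fun i => pow_le_one₀ (by positivity) (hr21 i)
  -- the components
  have comp : ∀ i, r i < min ρ0 ρ1 → ∀ (m : ℕ), (m = 1 ∨ m = 2) →
      ∀ hb : SlB (s i) (N + 4) C0 ((T i).W m),
      PS ((T i).W m) ∧ PS (fun p y => (T i).W m p y + (D i).W m p y) ∧
      SlB (s i) N C0 ((T i).W m) ∧
      SlB (s i) N (C0 + C') (fun p y => (T i).W m p y + (D i).W m p y) ∧
      SlB (s i) N (C' * (r i ^ 2) ^ (k + 1))
        (fun p y => ((T i).W m p y + (D i).W m p y) - (T i).W m p y) := by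
    intro i hi m hm hb
    have h0 := hst i (hi.trans_le (min_le_left _ _))
    obtain ⟨hok, _, _, _, hbW, _⟩ := hD i hi
    refine STEP_comp (j := m) (hs i).1 (hs i).2 (hδ0 i) (hδ1 i) hC' (by omega) h0.ok.cW hok.cW
      (TJ.OK.add h0.ok hok).cW (hb.mono (by omega) le_rfl) ?_
    intro n hn p y hy
    have := hbW (n + m) (by omega) p y hy
    rwa [hsδ] at this
  have compV : ∀ i, r i < min ρ0 ρ1 → ∀ (m : ℕ), (m = 0 ∨ m = 1) →
      ∀ hb : SlB (s i) (N + 4) C0 ((T i).V m),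
      PS ((T i).V m) ∧ PS (fun p y => (T i).V m p y + (D i).V m p y) ∧
      SlB (s i) N C0 ((T i).V m) ∧
      SlB (s i) N (C0 + C') (fun p y => (T i).V m p y + (D i).V m p y) ∧
      SlB (s i) N (C' * (r i ^ 2) ^ (k + 1))
        (fun p y => ((T i).V m p y + (D i).V m p y) - (T i).V m p y) := by
    intro i hi m hm hb
    have h0 := hst i (hi.trans_le (min_le_left _ _))
    obtain ⟨hok, _, _, _, _, hbV⟩ := hD i hi
    refine STEP_comp (j := m) (hs i).1 (hs i).2 (hδ0 i) (hδ1 i) hC' (by omega) h0.ok.cV hok.cV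
      (TJ.OK.add h0.ok hok).cV (hb.mono (by omega) le_rfl) ?_
    intro n hn p y hy
    have := hbV (n + m) (by omega) p y hy
    rwa [hsδ] at this
  have hCC : 0 ≤ C0 + C' := by linarith
  have mk : ∀ (i : ι) (F : ℝ → ℝ → ℝ) (G : ℝ → ℝ → ℝ),
      (PS F ∧ PS G ∧ SlB (s i) N C0 F ∧ SlB (s i) N (C0 + C') G ∧
        SlB (s i) N (C' * (r i ^ 2) ^ (k + 1)) (fun p y => G p y - F p y)) →
      PS F ∧ PS G ∧ SlB (s i) N (C0 + C') F ∧ SlB (s i) N (C0 + C') G ∧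
        SlB (s i) N ((C0 + C') * (r i ^ 2) ^ (k + 1)) (fun p y => G p y - F p y) := by
    rintro i F G ⟨h1, h2, h3, h4, h5⟩
    refine ⟨h1, h2, h3.mono le_rfl (by linarith), h4, h5.mono le_rfl ?_⟩
    exact mul_le_mul_of_nonneg_right (by linarith) (hδ0 i)
  have w1 : UDf r s (fun i => (r i ^ 2) ^ (k + 1)) N (fun i => (T i).W 1)
      (fun i => ((T i).add (D i)).W 1) :=
    ⟨min ρ0 ρ1, C0 + C', lt_min hρ0 hρ1, hCC, fun i hi => mk i _ _ (comp i hi 1 (Or.inl rfl)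
      (hst i (hi.trans_le (min_le_left _ _))).b1)⟩
  have w2 : UDf r s (fun i => (r i ^ 2) ^ (k + 1)) N (fun i => (T i).V 0)
      (fun i => ((T i).add (D i)).V 0) :=
    ⟨min ρ0 ρ1, C0 + C', lt_min hρ0 hρ1, hCC, fun i hi => mk i _ _ (compV i hi 0 (Or.inl rfl)
      (hst i (hi.trans_le (min_le_left _ _))).b2)⟩
  have w3 : UDf r s (fun i => (r i ^ 2) ^ (k + 1)) N (fun i => (T i).W 2)
      (fun i => ((T i).add (D i)).W 2) :=
    ⟨min ρ0 ρ1, C0 + C', lt_min hρ0 hρ1, hCC, fun i hi => mk i _ _ (comp i hi 2 (Or.inr rfl)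
      (hst i (hi.trans_le (min_le_left _ _))).b3)⟩
  have w4 : UDf r s (fun i => (r i ^ 2) ^ (k + 1)) N (fun i => (T i).V 1)
      (fun i => ((T i).add (D i)).V 1) :=
    ⟨min ρ0 ρ1, C0 + C', lt_min hρ0 hρ1, hCC, fun i hi => mk i _ _ (compV i hi 1 (Or.inr rfl)
      (hst i (hi.trans_le (min_le_left _ _))).b4)⟩
  obtain ⟨ρ2, C2, hρ2, hC2, hPP2⟩ := PP_UDf (A := A) (e := fun i => s i ^ 2) hr hs01 he hmuA
    hδ0 pt_contDiff pt_compact w1 w2 w3 w4
  refine ⟨fun i => (T i).add (D i), fun i => NN (r i) (s i ^ 2) (mu i) (T i),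
    min (min ρ0 ρ1) ρ2, C0 + C' + C2, lt_min (lt_min hρ0 hρ1) hρ2, by linarith, ?_⟩
  intro i hi
  have hi01 : r i < min ρ0 ρ1 := hi.trans_le (min_le_left _ _)
  have hi2 : r i < ρ2 := hi.trans_le (min_le_right _ _)
  have h0 := hst i (hi01.trans_le (min_le_left _ _))
  have hN := hNN i (hi01.trans_le (min_le_right _ _))
  obtain ⟨hok, hlow, hhigh, hX, hbW, hbV⟩ := hD i hi01
  have ha : r i ^ 2 * s i ^ 2 * (r i ^ 2) ^ k ≤ r i ^ 2 * s i ^ 2 :=
    mul_le_of_le_one_right (by positivity) (pow_le_one₀ (by positivity) (hr21 i))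
  have c1 := comp i hi01 1 (Or.inl rfl) h0.b1
  have c2 := compV i hi01 0 (Or.inl rfl) h0.b2
  have c3 := comp i hi01 2 (Or.inr rfl) h0.b3
  have c4 := compV i hi01 1 (Or.inr rfl) h0.b4
  have hle : C0 + C' ≤ C0 + C' + C2 := by linarith
  exact {
    ok := TJ.OK.add h0.ok hok
    hg := hN
    low := fun p hp => by
      change (T i).W 0 p (-YY) + (D i).W 0 p (-YY) = Fm i p
      rw [h0.low p hp, hlow p hp, add_zero]
    high := fun p hp => by
      change (T i).W 0 p YY + (D i).W 0 p YY = Fp i p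
      rw [h0.high p hp, hhigh p hp, add_zero]
    eq := fun n p hp y hy => by
      change (T i).X n p y + (D i).X n p y = _ - _ * ((T i).W (n + 2) p y + (D i).W (n + 2) p y)
      rw [h0.eq n p hp y hy, hX n p hp y hy]
      have hk1 : PS (fun p y => kap p * g i p y) :=
        PS.mul (PS.pfun kap_contDiff) h0.hg
      have hk2 : PS (fun p y => kap p * (NN (r i) (s i ^ 2) (mu i) (T i) p y - g i p y)) :=
        PS.mul (PS.pfun kap_contDiff) (PS.sub hN h0.hg)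
      have hsum := dpn_add hk1 hk2 n (p := p) hy
      have hfun : (fun p y => kap p * g i p y +
          kap p * (NN (r i) (s i ^ 2) (mu i) (T i) p y - g i p y)) =
          fun p y => kap p * NN (r i) (s i ^ 2) (mu i) (T i) p y := by
        funext p y; ring
      rw [hfun] at hsum
      rw [hsum]
      ring
    b1 := c1.2.2.2.1.mono le_rfl hle
    b2 := c2.2.2.2.1.mono le_rfl hle
    b3 := c3.2.2.2.1.mono le_rfl hle
    b4 := c4.2.2.2.1.mono le_rfl hle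
    res := by
      have h1 := (hPP2 i hi2).2.2.2.2
      have h2 := STEP_SlB_const (c := r i ^ 2 * s i ^ 2) (by positivity) h1
      have h3 : (fun p y => NN (r i) (s i ^ 2) (mu i) ((T i).add (D i)) p y
          - NN (r i) (s i ^ 2) (mu i) (T i) p y) =
          fun p y => (r i ^ 2 * s i ^ 2) * (fun p y =>
            PPalg (r i) (s i ^ 2) (mu i) (pt p) (chi y) (deriv chi y) (kk y) (deriv kk y)
              (((T i).add (D i)).W 1 p y) (((T i).add (D i)).V 0 p y)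
              (((T i).add (D i)).W 2 p y) (((T i).add (D i)).V 1 p y)
            - PPalg (r i) (s i ^ 2) (mu i) (pt p) (chi y) (deriv chi y) (kk y) (deriv kk y)
              ((T i).W 1 p y) ((T i).V 0 p y) ((T i).W 2 p y) ((T i).V 1 p y)) p y := by
        funext p y
        simp only [NN]
        ring
      rw [h3]
      refine h2.mono le_rfl ?_
      have h4 : C2 * (r i ^ 2) ^ (k + 1) * (r i ^ 2 * s i ^ 2) =
          C2 * (r i ^ 2 * s i ^ 2 * (r i ^ 2) ^ (k + 1)) := by ring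
      rw [h4]
      exact mul_le_mul_of_nonneg_right (by linarith) (by positivity)
    cW := fun n hn p y hy => by
      have h1 := h0.cW n hn p y hy
      have h2 := hbW n (by omega) p y hy
      have h3 : ((T i).add (D i)).W n p y - (T0 i).W n p y =
          ((T i).W n p y - (T0 i).W n p y) + (D i).W n p y := by
        simp only [TJ.add]; ring
      rw [h3]
      have h4 : (|(T i).W n p y - (T0 i).W n p y + (D i).W n p y|) * s i ^ n ≤
          (|(T i).W n p y - (T0 i).W n p y| + |(D i).W n p y|) * s i ^ n :=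
        mul_le_mul_of_nonneg_right (abs_add_le _ _) (by have := hs0 i; positivity)
      have h5 : C' * (r i ^ 2 * s i ^ 2 * (r i ^ 2) ^ k) ≤ C' * (r i ^ 2 * s i ^ 2) :=
        mul_le_mul_of_nonneg_left ha hC'
      have h6 : 0 ≤ C2 * (r i ^ 2 * s i ^ 2) := by positivity
      nlinarith
    cV := fun n hn p y hy => by
      have h1 := h0.cV n hn p y hy
      have h2 := hbV n (by omega) p y hy
      have h3 : ((T i).add (D i)).V n p y - (T0 i).V n p y =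
          ((T i).V n p y - (T0 i).V n p y) + (D i).V n p y := by
        simp only [TJ.add]; ring
      rw [h3]
      have h4 : (|(T i).V n p y - (T0 i).V n p y + (D i).V n p y|) * s i ^ n ≤
          (|(T i).V n p y - (T0 i).V n p y| + |(D i).V n p y|) * s i ^ n :=
        mul_le_mul_of_nonneg_right (abs_add_le _ _) (by have := hs0 i; positivity)
      have h5 : C' * (r i ^ 2 * s i ^ 2 * (r i ^ 2) ^ k) ≤ C' * (r i ^ 2 * s i ^ 2) :=
        mul_le_mul_of_nonneg_left ha hC'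
      have h6 : 0 ≤ C2 * (r i ^ 2 * s i ^ 2) := by positivity
      nlinarith }

/-- module STEP: iteration -/
theorem stage_iter {A : ℝ} (hr : ∀ i, 0 < r i ∧ r i ≤ 1) (hs : ∀ i, 0 < s i ∧ s i ≤ 1)
    (hmu : ∀ i, 0 ≤ mu i ∧ mu i ≤ A) {Fm Fp : ι → ℝ → ℝ} {T0 : ι → TJ}
    (K : ℕ)
    (h : ∃ ρ C : ℝ, 0 < ρ ∧ 0 ≤ C ∧ ∀ i, r i < ρ →
      Stage (r i) (s i) (mu i) (4 * K) 0 C (Fm i) (Fp i) (T0 i) (T0 i) (fun _ _ => 0)) :
    ∃ (T : ι → TJ) (g : ι → ℝ → ℝ → ℝ), ∃ ρ C : ℝ, 0 < ρ ∧ 0 ≤ C ∧ ∀ i, r i < ρ →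
      Stage (r i) (s i) (mu i) 0 K C (Fm i) (Fp i) (T0 i) (T i) (g i) := by
  have key : ∀ j ≤ K, ∃ (T : ι → TJ) (g : ι → ℝ → ℝ → ℝ), ∃ ρ C : ℝ, 0 < ρ ∧ 0 ≤ C ∧
      ∀ i, r i < ρ →
        Stage (r i) (s i) (mu i) (4 * (K - j)) j C (Fm i) (Fp i) (T0 i) (T i) (g i) := by
    intro j
    induction j with
    | zero =>
      intro _
      exact ⟨T0, fun _ _ _ => 0, h⟩
    | succ j ih =>
      intro hj
      obtain ⟨T, g, hT⟩ := ih (by omega)
      have e : 4 * (K - j) = 4 * (K - (j + 1)) + 4 := by omega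
      rw [e] at hT
      exact stage_step hr hs hmu (4 * (K - (j + 1))) j hT
  have := key K le_rfl
  rwa [Nat.sub_self, Nat.mul_zero] at this

end

end P229
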