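import Vale.Agent.P229.D2.Data
import Vale.Agent.P229.D2.Base
import Vale.Agent.P229.D2.Stage0
import Vale.Agent.P229.D2.Step
import Vale.Agent.P229.D2.PPAlg
import Vale.Agent.P229.D2.Close2

/-!
# P229, block D2, module MAIN (helper75): `BlockC → BlockD`
-/

namespace P229

open Set Real
open scoped ContDiff

noncomputable section

open D1 (CJet)

/-- the 2-jet -/
def TJ.j2 (T : TJ) : J2 := ⟨T.W 0, T.W 1, T.V 0, T.W 2, T.V 1, T.X 0⟩

/-- module MAINJ -/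
theorem TJ.OK.isJet {T : TJ} (h : T.OK) : T.j2.IsJet (-(14 / 10)) (14 / 10) (-YY) YY := by
  have hsub : (Icc (-(14 / 10) : ℝ) (14 / 10) ×ˢ Icc (-YY) YY) ⊆ (univ ×ˢ Icc (-YY) YY) :=
    prod_mono (subset_univ _) le_rfl
  constructor
  · exact (h.cW.cont 0).mono hsub
  · exact (h.cW.cont 1).mono hsub
  · exact (h.cV.cont 0).mono hsub
  · exact (h.cW.cont 2).mono hsub
  · exact (h.cV.cont 1).mono hsub
  · exact (h.cX.cont 0).mono hsub
  · intro p _ y hy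
    exact h.cW.der 0 p y hy
  · intro p _ y hy
    exact h.cW.der 1 p y hy
  · intro p _ y hy
    exact h.cV.der 0 p y hy
  · intro p _ y hy
    exact (h.hV 0 p y (Ioo_subset_Icc_self hy)).hasDerivAt (Icc_mem_nhds hy.1 hy.2)
  · intro p _ y hy
    exact (h.hV 1 p y (Ioo_subset_Icc_self hy)).hasDerivAt (Icc_mem_nhds hy.1 hy.2)
  · intro p _ y hy
    exact (h.hX 0 p y (Ioo_subset_Icc_self hy)).hasDerivAt (Icc_mem_nhds hy.1 hy.2)

/-- module MAIN, the final estimates for one configuration -/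
theorem main_aux {C1 r' mu' σ CC CS CP K : ℝ} {k b Q : ℕ} {u : ℝ → ℝ → ℝ} {T0 T : TJ}
    {g : ℝ → ℝ → ℝ} (h1 : 1 ≤ C1) (hk : 10 ≤ k) (h0 : 0 < r') (hr1 : r' ≤ 1)
    (hm1 : 1 / C1 ≤ mu') (hm2 : mu' ≤ C1) (hCC : 0 ≤ CC) (hCS : 0 ≤ CS) (hCP : 0 ≤ CP)
    (hK : K = 1 + CC + CS + CP + CS * C1) (l5 : r' * (100 * (2 * K)) < 1)
    (hσ : σ = r' ^ (10 * k))
    (St : Stage r' σ mu' 0 Q CS (fun p => kap p * u p (-YY)) (fun p => kap p * u p YY) T0 T g)
    (Cl : ∀ p : ℝ, |p| ≤ 14 / 10 → ∀ y ∈ IY,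
        |u p y - T0.W 0 p y| ≤ CC * (r' ^ 2 * σ ^ 2) ∧
        |dx u p y - T0.W 1 p y| ≤ CC * σ ∧
        |dx (dx u) p y - T0.W 2 p y| ≤ CC * r' ∧
        |dy u p y - T0.V 0 p y| ≤ CC * σ ^ 2 ∧
        |dy (dx u) p y - T0.V 1 p y| ≤ CC * σ)
    (Pb : ∀ p, ∀ y ∈ IY, |PPalg r' (σ ^ 2) mu' (pt p) (chi y) (deriv chi y) (kk y) (deriv kk y)
      (T.W 1 p y) (T.V 0 p y) (T.W 2 p y) (T.V 1 p y)| ≤ CP) :
    SlowU ⟨r', k, b⟩ mu' (2 * K) Q u T.j2 := by
  have hmu0 : 0 ≤ mu' := (by positivity : (0 : ℝ) ≤ 1 / C1).trans hm1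
  have hCSC : 0 ≤ CS * C1 := mul_nonneg hCS (by linarith)
  have hK1 : 1 ≤ K := by rw [hK]; linarith
  have hσ0 : 0 < σ := by rw [hσ]; positivity
  have hσ1 : σ ≤ 1 := by rw [hσ]; exact pow_le_one₀ h0.le hr1
  have hσr : σ ≤ r' := by
    rw [hσ]
    calc r' ^ (10 * k) ≤ r' ^ 1 := pow_le_pow_of_le_one h0.le hr1 (by omega)
      _ = r' := pow_one _
  have heps : (⟨r', k, b⟩ : Par).eps = σ ^ 2 := by
    unfold Par.eps
    rw [hσ, ← pow_mul]
    congr 1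
    ring
  have hss : (⟨r', k, b⟩ : Par).s = σ := hσ.symm
  have hT : ∀ p : ℝ, p ∈ Icc (-(14 / 10) : ℝ) (14 / 10) → |p| ≤ 14 / 10 := fun p hp => abs_le.2 hp
  have hr2 : r' ^ 2 ≤ 1 := pow_le_one₀ h0.le hr1
  -- closeness
  have cW : ∀ n ≤ 2, ∀ p, ∀ y ∈ IY, |T0.W n p y - T.W n p y| * σ ^ n ≤
      CS * (r' ^ 2 * σ ^ 2) := by
    intro n hn p y hy
    have := St.cW n hn p y hy
    rwa [abs_sub_comm]
  have cV : ∀ n ≤ 2, ∀ p, ∀ y ∈ IY, |T0.V n p y - T.V n p y| * σ ^ n ≤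
      CS * (r' ^ 2 * σ ^ 2) := by
    intro n hn p y hy
    have := St.cV n hn p y hy
    rwa [abs_sub_comm]
  have tri : ∀ a b c : ℝ, |a - c| ≤ |a - b| + |b - c| := fun a b c => abs_sub_le a b c
  have e0 : ∀ p, ∀ y ∈ IY, |T0.W 0 p y - T.W 0 p y| ≤ CS * σ ^ 2 := by
    intro p y hy
    have := cW 0 (by norm_num) p y hy
    rw [pow_zero, mul_one] at this
    refine this.trans (mul_le_mul_of_nonneg_left ?_ hCS)
    nlinarith [sq_nonneg σ]
  have e1 : ∀ p, ∀ y ∈ IY, |T0.W 1 p y - T.W 1 p y| ≤ CS * σ := by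
    intro p y hy
    have := cW 1 (by norm_num) p y hy
    rw [pow_one] at this
    have h3 : |T0.W 1 p y - T.W 1 p y| * σ ≤ (CS * σ) * σ := by
      refine this.trans ?_
      rw [mul_assoc, ← sq]
      refine mul_le_mul_of_nonneg_left ?_ hCS
      nlinarith [sq_nonneg σ]
    exact le_of_mul_le_mul_right h3 hσ0
  have e2 : ∀ p, ∀ y ∈ IY, |T0.W 2 p y - T.W 2 p y| ≤ CS * r' := by
    intro p y hy
    have := cW 2 le_rfl p y hy
    have h3 : |T0.W 2 p y - T.W 2 p y| * σ ^ 2 ≤ (CS * r') * σ ^ 2 := by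
      refine this.trans ?_
      rw [mul_assoc]
      refine mul_le_mul_of_nonneg_left ?_ hCS
      refine mul_le_mul_of_nonneg_right ?_ (sq_nonneg _)
      nlinarith
    exact le_of_mul_le_mul_right h3 (by positivity)
  have e3 : ∀ p, ∀ y ∈ IY, |T0.V 0 p y - T.V 0 p y| ≤ CS * σ ^ 2 := by
    intro p y hy
    have := cV 0 (by norm_num) p y hy
    rw [pow_zero, mul_one] at this
    refine this.trans (mul_le_mul_of_nonneg_left ?_ hCS)
    nlinarith [sq_nonneg σ]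
  have e4 : ∀ p, ∀ y ∈ IY, |T0.V 1 p y - T.V 1 p y| ≤ CS * σ := by
    intro p y hy
    have := cV 1 (by norm_num) p y hy
    rw [pow_one] at this
    have h3 : |T0.V 1 p y - T.V 1 p y| * σ ≤ (CS * σ) * σ := by
      refine this.trans ?_
      rw [mul_assoc, ← sq]
      refine mul_le_mul_of_nonneg_left ?_ hCS
      nlinarith [sq_nonneg σ]
    exact le_of_mul_le_mul_right h3 hσ0
  -- the equation
  have hX : ∀ p ∈ Icc (-(14 / 10) : ℝ) (14 / 10), ∀ y ∈ IY,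
      T.X 0 p y = -g p y - σ ^ 2 * mu' * chi y * T.W 2 p y := by
    intro p hp y hy
    have hp' := hT p hp
    have := St.eq 0 p (by linarith) y hy
    rw [this]
    have h5 : dpn 0 (fun p y => kap p * g p y) p y = g p y := by
      have h6 : dpn 0 (fun p y => kap p * g p y) p y = kap p * g p y := by
        unfold dpn
        rw [iteratedDeriv_zero]
      rw [h6, kap_eq_one (by linarith), one_mul]
    rw [h5]
  have hres : ∀ p, ∀ y ∈ IY, |NN r' (σ ^ 2) mu' T p y - g p y| ≤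
      CS * (r' ^ 2 * σ ^ 2 * (r' ^ 2) ^ Q) := by
    intro p y hy
    have := St.res 0 le_rfl p y hy
    rw [pow_zero, mul_one] at this
    unfold dpn at this
    rw [iteratedDeriv_zero] at this
    exact this
  have hNN : ∀ p, ∀ y ∈ IY, |NN r' (σ ^ 2) mu' T p y| ≤ CP * σ ^ 2 := by
    intro p y hy
    have := Pb p y hy
    unfold NN
    rw [abs_mul, abs_of_nonneg (by positivity)]
    calc r' ^ 2 * σ ^ 2 * _ ≤ (1 * σ ^ 2) * CP := by
          refine mul_le_mul ?_ this (abs_nonneg _) (by positivity)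
          exact mul_le_mul_of_nonneg_right hr2 (sq_nonneg _)
      _ = CP * σ ^ 2 := by ring
  have hQ : (r' ^ 2) ^ Q ≤ r' ^ Q := by
    rw [← pow_mul]
    exact pow_le_pow_of_le_one h0.le hr1 (by omega)
  have hchi : ∀ y, |chi y| ≤ 1 := fun y => by
    rw [abs_of_nonneg (chi_nonneg y)]
    exact chi_le_one y
  constructor
  · exact St.ok.isJet
  · intro p hp
    have hp' := hT p hp
    have := St.high p (by linarith)
    change T.W 0 p YY = u p YY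
    rw [this]
    change kap p * u p YY = u p YY
    rw [kap_eq_one (by linarith), one_mul]
  · intro p hp
    have hp' := hT p hp
    have := St.low p (by linarith)
    change T.W 0 p (-YY) = u p (-YY)
    rw [this]
    change kap p * u p (-YY) = u p (-YY)
    rw [kap_eq_one (by linarith), one_mul]
  · intro p hp y hy
    have c := (Cl p (hT p hp) y hy).1
    rw [heps]
    change |u p y - T.W 0 p y| ≤ _
    refine (tri _ (T0.W 0 p y) _).trans ((add_le_add c (e0 p y hy)).trans ?_)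
    have : CC * (r' ^ 2 * σ ^ 2) ≤ CC * σ ^ 2 :=
      mul_le_mul_of_nonneg_left (by nlinarith [sq_nonneg σ]) hCC
    nlinarith [sq_nonneg σ]
  · intro p hp y hy
    have c := (Cl p (hT p hp) y hy).2.1
    rw [hss]
    change |dx u p y - T.W 1 p y| ≤ _
    refine (tri _ (T0.W 1 p y) _).trans ((add_le_add c (e1 p y hy)).trans ?_)
    nlinarith
  · intro p hp y hy
    have c := (Cl p (hT p hp) y hy).2.2.2.1
    rw [heps]
    change |dy u p y - T.V 0 p y| ≤ _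
    refine (tri _ (T0.V 0 p y) _).trans ((add_le_add c (e3 p y hy)).trans ?_)
    nlinarith [sq_nonneg σ]
  · intro p hp y hy
    have c := (Cl p (hT p hp) y hy).2.2.1
    change |dx (dx u) p y - T.W 2 p y| ≤ _
    refine (tri _ (T0.W 2 p y) _).trans ((add_le_add c (e2 p y hy)).trans ?_)
    nlinarith
  · intro p hp y hy
    have c := (Cl p (hT p hp) y hy).2.2.2.2
    change |dy (dx u) p y - T.V 1 p y| ≤ _
    refine (tri _ (T0.V 1 p y) _).trans ((add_le_add c (e4 p y hy)).trans ?_)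
    nlinarith
  · intro p hp y hy
    rw [heps]
    change |T.X 0 p y| ≤ _
    rw [hX p hp y hy]
    have h3 := St.b3 0 le_rfl p y hy
    rw [pow_zero, mul_one] at h3
    unfold dpn at h3
    rw [iteratedDeriv_zero] at h3
    have h3' : |T.W 2 p y| ≤ CS := h3
    have h4 : |g p y| ≤ (CS + CP) * σ ^ 2 := by
      have : |g p y| ≤ |g p y - NN r' (σ ^ 2) mu' T p y| +
          |NN r' (σ ^ 2) mu' T p y| := by
        have := abs_add_le (g p y - NN r' (σ ^ 2) mu' T p y) (NN r' (σ ^ 2) mu' T p y)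
        rwa [sub_add_cancel] at this
      refine this.trans ?_
      rw [abs_sub_comm]
      refine (add_le_add (hres p y hy) (hNN p y hy)).trans ?_
      have h6 : r' ^ 2 * σ ^ 2 * (r' ^ 2) ^ Q ≤ 1 * σ ^ 2 * 1 := by
        have : (r' ^ 2) ^ Q ≤ 1 := pow_le_one₀ (by positivity) hr2
        gcongr
      nlinarith [mul_le_mul_of_nonneg_left h6 hCS]
    have h7 : |σ ^ 2 * mu' * chi y * T.W 2 p y| ≤ σ ^ 2 * C1 * 1 * CS := by
      rw [abs_mul, abs_mul, abs_mul, abs_of_nonneg (sq_nonneg σ)]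
      have hm : |mu'| ≤ C1 := by rw [abs_of_nonneg hmu0]; exact hm2
      have := hchi y
      gcongr
    have h8 : |-g p y - σ ^ 2 * mu' * chi y * T.W 2 p y| ≤
        |g p y| + |σ ^ 2 * mu' * chi y * T.W 2 p y| := by
      have := abs_sub (-g p y) (σ ^ 2 * mu' * chi y * T.W 2 p y)
      rwa [abs_neg] at this
    refine h8.trans ((add_le_add h4 h7).trans ?_)
    nlinarith [sq_nonneg σ]
  · intro p hp y hy
    change |EE0 ⟨r', k, b⟩ mu' p y (T.W 1 p y) (T.V 0 p y) (T.W 2 p y)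
      (T.V 1 p y) (T.X 0 p y)| ≤ r' ^ Q
    rw [EE0_eq, heps, hX p hp y hy]
    have hp' := hT p hp
    have h5 : -g p y - σ ^ 2 * mu' * chi y * T.W 2 p y + σ ^ 2 * mu' * chi y * T.W 2 p y
        + r' ^ 2 * σ ^ 2 * PPalg r' (σ ^ 2) mu' p (chi y) (deriv chi y) (kk y) (deriv kk y)
          (T.W 1 p y) (T.V 0 p y) (T.W 2 p y) (T.V 1 p y) =
        NN r' (σ ^ 2) mu' T p y - g p y := by
      unfold NN
      rw [pt_eq (by linarith)]
      ring
    rw [h5]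
    refine (hres p y hy).trans ?_
    calc CS * (r' ^ 2 * σ ^ 2 * (r' ^ 2) ^ Q) ≤ CS * (r' ^ 2 * 1 * r' ^ Q) := by
          have : σ ^ 2 ≤ 1 := pow_le_one₀ hσ0.le hσ1
          gcongr
      _ = (CS * r' ^ 2) * r' ^ Q := by ring
      _ ≤ 1 * r' ^ Q := by
          refine mul_le_mul_of_nonneg_right ?_ (by positivity)
          nlinarith
      _ = r' ^ Q := one_mul _


/-- module MAIN -/
theorem blockD_of_blockC (hC : BlockC) : BlockD := by
  intro C1 k b Q h1 hk hb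
  let ι : Type := {i : ℝ × ℝ × (ℝ → ℝ → ℝ) // 0 < i.1 ∧ i.1 ≤ 1 ∧ 1 / C1 ≤ i.2.1 ∧ i.2.1 ≤ C1 ∧
    GoodU ⟨i.1, k, b⟩ i.2.1 C1 i.2.2}
  let r : ι → ℝ := fun i => i.1.1
  let s : ι → ℝ := fun i => i.1.1 ^ (10 * k)
  let mu : ι → ℝ := fun i => i.1.2.1
  let Fm : ι → ℝ → ℝ := fun i p => kap p * i.1.2.2 p (-YY)
  let Fp : ι → ℝ → ℝ := fun i p => kap p * i.1.2.2 p YY
  have hr : ∀ i, 0 < r i ∧ r i ≤ 1 := fun i => ⟨i.2.1, i.2.2.1⟩
  have hs : ∀ i, 0 < s i ∧ s i ≤ 1 := fun i => ⟨pow_pos i.2.1 _, pow_le_one₀ i.2.1.le i.2.2.1⟩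
  have hmu : ∀ i, 0 ≤ mu i ∧ mu i ≤ C1 := fun i =>
    ⟨(by positivity : (0 : ℝ) ≤ 1 / C1).trans i.2.2.2.1, i.2.2.2.2.1⟩
  obtain ⟨ρ1, CD, hρ1, hCD, HD⟩ := data_ok hC C1 k b (4 * Q + 2) h1 hk hb
  obtain ⟨CB, hCB, HB⟩ := base_ok C1 CD (4 * Q)
  have hT0 : ∀ i : ι, ∃ T : TJ, r i < ρ1 →
      BaseOK (s i) (mu i) (4 * Q) CB (Fm i) (Fp i) T := by
    intro i
    by_cases hi : r i < ρ1
    · obtain ⟨d1, d2⟩ := HD (r i) (mu i) i.1.2.2 (hr i).1 hi i.2.2.2.1 i.2.2.2.2.1 i.2.2.2.2.2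
      obtain ⟨T, hT⟩ := HB (s i) (mu i) (Fm i) (Fp i) (hs i).1 (hs i).2 (hmu i).1 (hmu i).2 d1 d2
      exact ⟨T, fun _ => hT⟩
    · exact ⟨⟨fun _ _ _ => 0, fun _ _ _ => 0, fun _ _ _ => 0⟩, fun h => absurd h hi⟩
  choose T0 hT0 using hT0
  obtain ⟨T, g, ρ2, CS, hρ2, hCS, HS⟩ := stage_iter hr hs hmu Q
    (stage_zero hr hs hmu (4 * Q) ⟨ρ1, CB, hρ1, hCB, hT0⟩)
  obtain ⟨ρ3, CC, hρ3, hCC, HC⟩ := close2 C1 CB k b h1 hk
  -- a bound of `PPalg`
  have hfam : ∀ (j : ι → ℝ → ℝ → ℝ), (∀ i, r i < ρ2 → PS (j i) ∧ SlB (s i) 0 CS (j i)) →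
      UDf r s (fun _ => 0) 0 j j := by
    intro j hj
    exact USl.refl (fun i => (hs i).1.le) (fun _ => le_rfl) ⟨ρ2, CS, hρ2, hCS, hj⟩
  have hPP := PP_UDf (r := r) (s := s) (δ := fun _ => 0) (N := 0) (e := fun i => s i ^ 2)
    (mu := mu) (A := C1) (pt := pt) hr (fun i => ⟨(hs i).1.le, (hs i).2⟩)
    (fun i => ⟨sq_nonneg _, pow_le_one₀ (hs i).1.le (hs i).2⟩)
    (fun i => by rw [abs_of_nonneg (hmu i).1]; exact (hmu i).2) (fun _ => le_rfl)
    pt_contDiff pt_compact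
    (hfam (fun i => (T i).W 1) fun i hi => ⟨CJet.ps (HS i hi).ok.cW 1, (HS i hi).b1⟩)
    (hfam (fun i => (T i).V 0) fun i hi => ⟨CJet.ps (HS i hi).ok.cV 0, (HS i hi).b2⟩)
    (hfam (fun i => (T i).W 2) fun i hi => ⟨CJet.ps (HS i hi).ok.cW 2, (HS i hi).b3⟩)
    (hfam (fun i => (T i).V 1) fun i hi => ⟨CJet.ps (HS i hi).ok.cV 1, (HS i hi).b4⟩)
  obtain ⟨ρ4, CP, hρ4, hCP, HP⟩ := hPP
  -- the constants
  obtain ⟨K, hK⟩ : ∃ K : ℝ, K = 1 + CC + CS + CP + CS * C1 := ⟨_, rfl⟩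
  have hCSC : 0 ≤ CS * C1 := mul_nonneg hCS (by linarith)
  have hK1 : 1 ≤ K := by rw [hK]; linarith
  refine ⟨2 * K, min (min ρ1 ρ2) (min (min ρ3 ρ4) (1 / (100 * (2 * K)))), by linarith,
    by positivity, ?_⟩
  intro r' h0 hr' mu' u hm1 hm2 hu
  have l1 : r' < ρ1 := hr'.trans_le ((min_le_left _ _).trans (min_le_left _ _))
  have l2 : r' < ρ2 := hr'.trans_le ((min_le_left _ _).trans (min_le_right _ _))
  have l3 : r' < ρ3 := hr'.trans_le
    ((min_le_right _ _).trans ((min_le_left _ _).trans (min_le_left _ _)))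
  have l4 : r' < ρ4 := hr'.trans_le
    ((min_le_right _ _).trans ((min_le_left _ _).trans (min_le_right _ _)))
  have l5 : r' < 1 / (100 * (2 * K)) := hr'.trans_le ((min_le_right _ _).trans (min_le_right _ _))
  have l5' : r' * (100 * (2 * K)) < 1 := by
    rwa [lt_div_iff₀ (by positivity)] at l5
  have hr1 : r' ≤ 1 := by nlinarith
  let i : ι := ⟨(r', mu', u), h0, hr1, hm1, hm2, hu⟩
  have St := HS i l2
  have Cl := HC r' mu' u (T0 i) h0 l3 hm1 hm2 hu (by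
    have := hT0 i l1
    exact ⟨this.ok, this.low, this.high, this.eq, this.bW, this.bV,
      this.b1.mono (Nat.zero_le _) le_rfl, this.b2.mono (Nat.zero_le _) le_rfl,
      this.b3.mono (Nat.zero_le _) le_rfl, this.b4.mono (Nat.zero_le _) le_rfl⟩)
  have Pb := (HP i l4).2.2.1
  refine ⟨(T i).j2, main_aux h1 hk h0 hr1 hm1 hm2 hCC hCS hCP hK l5' rfl St Cl ?_⟩
  intro p y hy
  have := Pb 0 le_rfl p y hy
  rw [pow_zero, mul_one] at this
  unfold dpn at this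
  rw [iteratedDeriv_zero] at this
  exact this

end

end P229
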