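import Vale.Agent.P229.Interface

/-!
# P229, block D2: the nonlinearity `E0(U) = U_yy + eps mu chi U_pp + r^2 eps PP`, definitions (helper75)
-/

namespace P229

open Set Real
open scoped ContDiff

noncomputable section

/-- `b0 / eps` -/
def bt (r X K x : ℝ) : ℝ := -(X * x ^ 2 / 2) + r ^ 2 * K * (x ^ 2 / 2 - x ^ 4 / 12)

/-- `b0x / eps` -/
def btx (r X K x : ℝ) : ℝ := -(X * x) + r ^ 2 * K * (x - x ^ 3 / 3)

/-- the nonlinearity: `e = eps`, `X = chi y`, `X' = chi' y`, `K = kk y`, `K' = kk' y`, `x = U_p` -/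
def PPalg (r e mu p X X' K K' x uy upp upy : ℝ) : ℝ :=
  let B := 1 + r ^ 2 * e * bt r X K x
  let q := -uy * B⁻¹
  2 * btx r X K x * q * upy + r ^ 2 * e * btx r X K x ^ 2 * q ^ 2 * upp
    + (X * (e * bt r X K x * mu - (p ^ 2 + q ^ 2) * B)
        - B * (mu - r ^ 2 * (p ^ 2 + q ^ 2)) * K * (1 - x ^ 2)) * upp
    + (q * bt r X' K' x - B * p * btx r X K x)

end

end P229
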