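import Vale.Agent.P229.Interface

/-!
# P229, block D2: slow functions on the strip, definitions (helper75)
`IY = [-YY, YY]`.  `dpn n F` is the `n`-th derivative in the first variable.
-/

namespace P229

open Set Real
open scoped ContDiff

noncomputable section

/-- the closed interval of the variable `y` -/
abbrev IY : Set ℝ := Icc (-YY) YY

/-- `n`-th derivative in the first variable -/
def dpn (n : ℕ) (F : ℝ → ℝ → ℝ) (p y : ℝ) : ℝ := iteratedDeriv n (fun t => F t y) p

/-- `F` is smooth in the first variable, all derivatives being jointly continuous on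
`ℝ × [-YY, YY]`. -/
structure PS (F : ℝ → ℝ → ℝ) : Prop where
  cd : ∀ y ∈ IY, ContDiff ℝ ∞ (fun t => F t y)
  cont : ∀ n, ContinuousOn (Function.uncurry (dpn n F)) (univ ×ˢ IY)

/-- slow bound of the first `N` derivatives, at scale `s` -/
def SlB (s : ℝ) (N : ℕ) (C : ℝ) (F : ℝ → ℝ → ℝ) : Prop :=
  ∀ n ≤ N, ∀ p, ∀ y ∈ IY, |dpn n F p y| * s ^ n ≤ C

theorem SlB.mono {s : ℝ} {N N' : ℕ} {C C' : ℝ} {F : ℝ → ℝ → ℝ} (h : SlB s N C F) (hN : N' ≤ N)
    (hC : C ≤ C') : SlB s N' C' F :=
  fun n hn p y hy => (h n (hn.trans hN) p y hy).trans hC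

end

end P229
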