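import Vale.Agent.P229.D1.Iface
import Vale.Agent.P229.D2.Slow
import Vale.Agent.P229.D2.PP

/-!
# P229, block D2: the iteration, definitions (helper75)

`TJ`: an approximate solution with all its `p`-jets: `W n`, `V n`, `X n` are the `n`-th
`p`-derivatives of `U`, `U_y`, `U_yy`.
-/

namespace P229

open Set Real
open scoped ContDiff

noncomputable section

open D1 (CJet)

/-- cutoff: `1` on `|p| ≤ 141/100`, `0` for `|p| ≥ 1415/1000` -/
def kap (p : ℝ) : ℝ :=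
  Real.smoothTransition (200 * (1415 / 1000 - p)) * Real.smoothTransition (200 * (1415 / 1000 + p))

/-- `p`, cut off -/
def pt (p : ℝ) : ℝ := p * cut p

/-- jets -/
structure TJ where
  W : ℕ → ℝ → ℝ → ℝ
  V : ℕ → ℝ → ℝ → ℝ
  X : ℕ → ℝ → ℝ → ℝ

structure TJ.OK (T : TJ) : Prop where
  cW : CJet T.W
  cV : CJet T.V
  cX : CJet T.X
  hV : ∀ n p, ∀ y ∈ IY, HasDerivWithinAt (fun y => T.W n p y) (T.V n p y) IY y
  hX : ∀ n p, ∀ y ∈ IY, HasDerivWithinAt (fun y => T.V n p y) (T.X n p y) IY y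

/-- sum of jets -/
def TJ.add (T D : TJ) : TJ :=
  ⟨fun n p y => T.W n p y + D.W n p y, fun n p y => T.V n p y + D.V n p y,
    fun n p y => T.X n p y + D.X n p y⟩

/-- the nonlinear term of `E0` -/
def NN (r e mu : ℝ) (T : TJ) (p y : ℝ) : ℝ :=
  r ^ 2 * e * PPalg r e mu (pt p) (chi y) (deriv chi y) (kk y) (deriv kk y)
    (T.W 1 p y) (T.V 0 p y) (T.W 2 p y) (T.V 1 p y)

/-- The state of the iteration: `U_yy + e mu chi U_pp = - kap g` with `N(U) - g` of amplitude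
`r^2 e r^(2k)`; `N` derivatives are controlled; `T0` is the initial approximation. -/
structure Stage (r s mu : ℝ) (N k : ℕ) (C : ℝ) (Fm Fp : ℝ → ℝ) (T0 T : TJ)
    (g : ℝ → ℝ → ℝ) : Prop where
  ok : T.OK
  hg : PS g
  low : ∀ p, |p| ≤ 3 → T.W 0 p (-YY) = Fm p
  high : ∀ p, |p| ≤ 3 → T.W 0 p YY = Fp p
  eq : ∀ n p, |p| ≤ 3 → ∀ y ∈ IY,
    T.X n p y = -dpn n (fun p y => kap p * g p y) p y - s ^ 2 * mu * chi y * T.W (n + 2) p y
  b1 : SlB s N C (T.W 1)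
  b2 : SlB s N C (T.V 0)
  b3 : SlB s N C (T.W 2)
  b4 : SlB s N C (T.V 1)
  res : SlB s N (C * (r ^ 2 * s ^ 2 * (r ^ 2) ^ k)) (fun p y => NN r (s ^ 2) mu T p y - g p y)
  cW : ∀ n ≤ 2, ∀ p, ∀ y ∈ IY, |T.W n p y - T0.W n p y| * s ^ n ≤ C * (r ^ 2 * s ^ 2)
  cV : ∀ n ≤ 2, ∀ p, ∀ y ∈ IY, |T.V n p y - T0.V n p y| * s ^ n ≤ C * (r ^ 2 * s ^ 2)

end

end P229
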