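import Vale.Agent.P229.D2.Kap
import Vale.Agent.P229.D2.Jets
import Vale.Agent.P229.D2.SlowMul

/-!
# P229, block D2, module STEPLIN (helper75)
-/

namespace P229

open Set Real
open scoped ContDiff

noncomputable section

open D1 (CJet)

private theorem slin_zero (R : ℝ → ℝ → ℝ) (n : ℕ) (p y : ℝ) (hp : 2 ≤ |p|) :
    dpn n (fun p y => kap p * R p y) p y = 0 := by
  unfold dpn
  exact iteratedDeriv_zero_outside (R := 1415 / 1000)
    (fun t ht => by simp only [kap_eq_zero ht, zero_mul]) n p (by linarith)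

private theorem slin_kap_bdd1 (n : ℕ) : ∃ K : ℝ, 1 ≤ K ∧ ∀ p, |iteratedDeriv n kap p| ≤ K := by
  refine bdd_of_zero_outside (R := 2) ?_ ?_
  · exact kap_contDiff.continuous_iteratedDeriv n (by exact_mod_cast le_top)
  · intro y hy
    exact iteratedDeriv_zero_outside (R := 1415 / 1000) (fun z hz => kap_eq_zero hz) n y
      (by linarith)

private theorem slin_kap_bdd (N : ℕ) :
    ∃ K : ℝ, 0 ≤ K ∧ ∀ n ≤ N, ∀ p, |iteratedDeriv n kap p| ≤ K := by
  choose K hK1 hK using slin_kap_bdd1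
  refine ⟨∑ i ∈ Finset.range (N + 1), K i,
    Finset.sum_nonneg fun i _ => zero_le_one.trans (hK1 i), fun n hn p => ?_⟩
  refine (hK n p).trans ?_
  exact Finset.single_le_sum (f := K) (fun i _ => zero_le_one.trans (hK1 i))
    (Finset.mem_range.2 (Nat.lt_succ_of_le hn))

private theorem slin_cjet {R : ℝ → ℝ → ℝ} (hR : PS R) :
    CJet (fun n p y => -dpn n (fun p y => kap p * R p y) p y) := by
  have h : CJet (fun n => dpn n (fun p y => kap p * R p y)) :=
    (PS.mul (PS.pfun kap_contDiff) hR).cjet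
  exact ⟨fun n => (h.cont n).neg, fun n p y hy => (h.der n p y hy).neg⟩

/-- the slow bound of `kap * R` -/
private theorem slin_sl (C : ℝ) (N : ℕ) : ∃ K : ℝ, 0 ≤ K ∧ ∀ (s a : ℝ) (R : ℝ → ℝ → ℝ),
    0 < s → s ≤ 1 → 0 ≤ a → PS R → SlB s N (C * a) R →
    SlB s N (K * a) (fun p y => kap p * R p y) := by
  obtain ⟨K0, hK0, hK⟩ := slin_kap_bdd N
  refine ⟨2 ^ N * (K0 * |C|), by positivity, fun s a R hs hs1 ha hR hb => ?_⟩
  have h1 : SlB s N K0 (fun p _ => kap p) := SlB.pfun hs.le hs1 hK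
  have h2 : SlB s N (|C| * a) R :=
    hb.mono le_rfl (mul_le_mul_of_nonneg_right (le_abs_self C) ha)
  have h3 := SlB.mul (PS.pfun kap_contDiff) hR hs.le hK0 (by positivity) h1 h2
  refine h3.mono le_rfl (le_of_eq ?_)
  ring

private theorem slin_div {x t B : ℝ} {n : ℕ} (ht : 0 < t) (h : x ≤ B / t ^ n) :
    x * t ^ n ≤ B := by
  rwa [le_div_iff₀ (by positivity)] at h

/-- module STEPLIN: one linear solve (`D1.strip_solver_c` with `f n = - dpn n (kap * R)`, zero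
lateral data, `c y = s^2 mu chi y`): the increment `D` and its bounds. `C' = C'(A, N, C)`. -/
theorem step_lin (A C : ℝ) (N : ℕ) : ∃ C' : ℝ, 0 ≤ C' ∧ ∀ (s mu a : ℝ) (R : ℝ → ℝ → ℝ),
    0 < s → s ≤ 1 → 0 ≤ mu → mu ≤ A → 0 ≤ a → PS R → SlB s (N + 2) (C * a) R →
    ∃ D : TJ, D.OK ∧ (∀ p, |p| ≤ 3 → D.W 0 p (-YY) = 0) ∧ (∀ p, |p| ≤ 3 → D.W 0 p YY = 0) ∧
      (∀ n p, |p| ≤ 3 → ∀ y ∈ IY, D.X n p y =
        -dpn n (fun p y => kap p * R p y) p y - s ^ 2 * mu * chi y * D.W (n + 2) p y) ∧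
      (∀ n ≤ N + 2, ∀ p, ∀ y ∈ IY, |D.W n p y| * s ^ n ≤ C' * a) ∧
      (∀ n ≤ N, ∀ p, ∀ y ∈ IY, |D.V n p y| * s ^ n ≤ C' * a) := by
  obtain ⟨K, hK0, hK⟩ := slin_sl C (N + 2)
  have hY : (0 : ℝ) < YY := by unfold YY; norm_num
  refine ⟨YY ^ 2 / 2 * K + (YY / 2 * K + 2 * YY * (K + |A| * (YY ^ 2 / 2 * K))),
    by positivity, fun s mu a R hs hs1 hmu hmuA ha hR hb => ?_⟩
  have hsl := hK s a R hs hs1 ha hR hb
  have hc : ContinuousOn (fun y => s ^ 2 * mu * chi y) (Icc (-YY) YY) :=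
    (continuous_const.mul chi_contDiff.continuous).continuousOn
  have hc0 : ∀ y ∈ Icc (-YY) YY, 0 ≤ s ^ 2 * mu * chi y := fun y _ =>
    mul_nonneg (by positivity) (chi_nonneg y)
  obtain ⟨W, V, X, hW, hV, hX, hWV, hVX, hXe, hlat, hbd⟩ :=
    D1.strip_solver_c hc hc0 (slin_cjet hR)
      (fun n p y hp => by rw [slin_zero R n p y hp, neg_zero])
      (Fm := fun _ _ => 0) (Fp := fun _ _ => 0)
      (fun n p => hasDerivAt_const _ _) (fun n p _ => rfl)
      (fun n p => hasDerivAt_const _ _) (fun n p _ => rfl)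
  have hM : ∀ n ≤ N + 2, ∀ p, ∀ y ∈ Icc (-YY) YY,
      |-dpn n (fun p y => kap p * R p y) p y| ≤ K * a / s ^ n := by
    intro n hn p y hy
    rw [abs_neg, le_div_iff₀ (by positivity)]
    exact hsl n hn p y hy
  have hWb : ∀ n ≤ N + 2, ∀ p, ∀ y ∈ Icc (-YY) YY,
      |W n p y| ≤ YY ^ 2 / 2 * (K * a / s ^ n) := by
    intro n hn p y hy
    have h := (hbd n 0 _ (fun p => by simp) (fun p => by simp) (hM n hn)).1 p y hy
    rwa [zero_add] at h
  have hVb : ∀ n ≤ N, ∀ p, ∀ y ∈ Icc (-YY) YY,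
      |V n p y| ≤ (YY / 2 * K + 2 * YY * (K + |A| * (YY ^ 2 / 2 * K))) * a / s ^ n := by
    intro n hn p y hy
    have hL : ∀ p, ∀ y ∈ Icc (-YY) YY,
        |s ^ 2 * mu * chi y * W (n + 2) p y| ≤ |A| * (YY ^ 2 / 2 * (K * a / s ^ n)) := by
      intro p y hy
      rw [abs_mul, abs_of_nonneg (hc0 y hy)]
      have h1 := hWb (n + 2) (by omega) p y hy
      have h2 : mu * chi y ≤ |A| := by
        calc mu * chi y ≤ mu * 1 := mul_le_mul_of_nonneg_left (chi_le_one y) hmu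
          _ ≤ |A| := by rw [mul_one]; exact hmuA.trans (le_abs_self A)
      have h3 : 0 ≤ mu * chi y := mul_nonneg hmu (chi_nonneg y)
      have h4 : s ^ 2 * (YY ^ 2 / 2 * (K * a / s ^ (n + 2))) = YY ^ 2 / 2 * (K * a / s ^ n) := by
        have hs' := hs.ne'
        rw [pow_add]
        field_simp
      calc s ^ 2 * mu * chi y * |W (n + 2) p y|
          ≤ s ^ 2 * mu * chi y * (YY ^ 2 / 2 * (K * a / s ^ (n + 2))) :=
            mul_le_mul_of_nonneg_left h1 (hc0 y hy)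
        _ = (mu * chi y) * (s ^ 2 * (YY ^ 2 / 2 * (K * a / s ^ (n + 2)))) := by ring
        _ = (mu * chi y) * (YY ^ 2 / 2 * (K * a / s ^ n)) := by rw [h4]
        _ ≤ |A| * (YY ^ 2 / 2 * (K * a / s ^ n)) :=
            mul_le_mul_of_nonneg_right h2 (by positivity)
    have h := (((hbd n 0 _ (fun p => by simp) (fun p => by simp) (hM n (by omega))).2 _ hL)
      p y hy).2
    refine h.trans (le_of_eq ?_)
    have hY' := hY.ne'
    have hs' := hs.ne'
    field_simp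
    ring
  refine ⟨⟨W, V, X⟩, ⟨hW, hV, hX, hWV, hVX⟩, fun p hp => (hlat 0 p hp).1,
    fun p hp => (hlat 0 p hp).2, fun n p hp y hy => hXe n p hp y hy, ?_, ?_⟩
  · intro n hn p y hy
    have h1 : |W n p y| * s ^ n ≤ YY ^ 2 / 2 * K * a := by
      refine slin_div hs ((hWb n hn p y hy).trans (le_of_eq ?_))
      ring
    refine h1.trans (mul_le_mul_of_nonneg_right ?_ ha)
    have : 0 ≤ YY / 2 * K + 2 * YY * (K + |A| * (YY ^ 2 / 2 * K)) := by positivity
    linarith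
  · intro n hn p y hy
    have h1 : |V n p y| * s ^ n ≤
        (YY / 2 * K + 2 * YY * (K + |A| * (YY ^ 2 / 2 * K))) * a := slin_div hs (hVb n hn p y hy)
    refine h1.trans (mul_le_mul_of_nonneg_right ?_ ha)
    have : 0 ≤ YY ^ 2 / 2 * K := by positivity
    linarith

end

end P229
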